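import Vale.Agent.P254.Local.Orthant
import Vale.Agent.P254.Three.Affine

/-!
Barycentric coordinates and the `n + 1` conical charts around the centre of the corner simplex.
-/

open MeasureTheory Set
open scoped Matrix

namespace Vale.Agent.P254.Local

variable {n : ℕ}

/-- All barycentric coordinates with respect to the corner simplex. -/
def bc (x : Fin n → ℝ) : Fin (n + 1) → ℝ := Fin.cons (1 - ∑ k, x k) x

@[simp] lemma bc_zero (x : Fin n → ℝ) : bc x 0 = 1 - ∑ k, x k := rfl

@[simp] lemma bc_succ (x : Fin n → ℝ) (k : Fin n) : bc x k.succ = x k := rfl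

lemma sum_bc (x : Fin n → ℝ) : ∑ j, bc x j = 1 := by simp [Fin.sum_univ_succ]

lemma bc_tail {μ : Fin (n + 1) → ℝ} (h : ∑ j, μ j = 1) : bc (Fin.tail μ) = μ := by
  funext j
  induction j using Fin.cases with
  | zero =>
    rw [Fin.sum_univ_succ] at h
    simp only [bc_zero, Fin.tail]
    linarith
  | succ k => rfl

lemma bc_injective {x y : Fin n → ℝ} (h : bc x = bc y) : x = y :=
  funext fun k => by simpa using congrFun h k.succ

@[fun_prop]
lemma continuous_bc : Continuous (bc (n := n)) := continuous_pi fun j => by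
  induction j using Fin.cases with
  | zero => simp only [bc_zero]; fun_prop
  | succ k => simp only [bc_succ]; fun_prop

lemma mem_simplex_iff {x : Fin n → ℝ} : x ∈ cornerSimplex n ↔ ∀ j, 0 ≤ bc x j := by
  simp only [cornerSimplex, mem_ofPred_eq, Fin.forall_fin_succ, bc_zero, bc_succ, sub_nonneg]
  exact and_comm

lemma isCompact_simplex : IsCompact (cornerSimplex n) := by
  refine Metric.isCompact_of_isClosed_isBounded ?_
    ((isCompact_Icc (a := (0 : Fin n → ℝ)) (b := fun _ => 1)).isBounded.subset fun x hx =>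
      ⟨hx.1, fun i => (Finset.single_le_sum (fun j _ => hx.1 j) (Finset.mem_univ i)).trans hx.2⟩)
  have : cornerSimplex n = ⋂ j, {x | 0 ≤ bc x j} := by
    ext x; simp [mem_simplex_iff]
  rw [this]
  exact isClosed_iInter fun j => isClosed_le continuous_const (by fun_prop)

/-- The centre of the corner simplex. -/
noncomputable def ctr (n : ℕ) : Fin n → ℝ := fun _ => 1 / ((n : ℝ) + 1)

lemma bc_ctr (j : Fin (n + 1)) : bc (ctr n) j = 1 / ((n : ℝ) + 1) := by
  induction j using Fin.cases with
  | zero => simp [ctr]; field_simp; ring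
  | succ k => rfl

lemma bc_scale (t : ℝ) (x : Fin n → ℝ) (j : Fin (n + 1)) :
    bc (ctr n + t • (x - ctr n)) j = (1 - t) / ((n : ℝ) + 1) + t * bc x j := by
  induction j using Fin.cases with
  | zero =>
    simp [ctr, Finset.sum_add_distrib, ← Finset.mul_sum, Finset.sum_sub_distrib]
    field_simp
    ring
  | succ k => simp [ctr]; ring

/-- Exchange of the barycentric coordinates `0` and `i`. -/
def flp (i : Fin (n + 1)) (x : Fin n → ℝ) : Fin n → ℝ :=
  Fin.tail fun j => bc x (Equiv.swap 0 i j)

lemma bc_flp (i j : Fin (n + 1)) (x : Fin n → ℝ) : bc (flp i x) j = bc x (Equiv.swap 0 i j) := by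
  rw [flp, bc_tail]
  rw [Equiv.sum_comp (Equiv.swap 0 i) (bc x), sum_bc]

lemma flp_flp (i : Fin (n + 1)) (x : Fin n → ℝ) : flp i (flp i x) = x :=
  bc_injective (funext fun j => by rw [bc_flp, bc_flp, Equiv.swap_apply_self])

/-- Linear part of `flp`. -/
def flpLin (i : Fin (n + 1)) : (Fin n → ℝ) →ₗ[ℝ] (Fin n → ℝ) where
  toFun x := fun k => (Fin.cons (-∑ l, x l) x : Fin (n + 1) → ℝ) (Equiv.swap 0 i k.succ)
  map_add' x y := by
    funext k
    simp only [Pi.add_apply]
    generalize Equiv.swap 0 i k.succ = j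
    induction j using Fin.cases with
    | zero => simp [Finset.sum_add_distrib]; ring
    | succ l => simp
  map_smul' r x := by
    funext k
    simp only [Pi.smul_apply, RingHom.id_apply, smul_eq_mul]
    generalize Equiv.swap 0 i k.succ = j
    induction j using Fin.cases with
    | zero => simp [Finset.mul_sum]
    | succ l => simp

lemma flp_eq (i : Fin (n + 1)) (x : Fin n → ℝ) :
    flp i x = LinearMap.toMatrix' (flpLin i) *ᵥ x + flp i 0 := by
  rw [LinearMap.toMatrix'_mulVec]
  funext k
  simp only [flp, Fin.tail, flpLin, LinearMap.coe_mk, AddHom.coe_mk, Pi.add_apply]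
  generalize Equiv.swap 0 i k.succ = j
  induction j using Fin.cases with
  | zero => simp; ring
  | succ l => simp

lemma abs_det_flp (i : Fin (n + 1)) : |(LinearMap.toMatrix' (flpLin i)).det| = 1 := by
  set M := LinearMap.toMatrix' (flpLin i) with hM
  have h : ∀ x, M *ᵥ (M *ᵥ x + flp i 0) + flp i 0 = x := fun x => by
    rw [← flp_eq, ← flp_eq, flp_flp]
  have hMM : M * M = 1 := by
    refine Matrix.ext_of_mulVec_single fun k => ?_
    have h0 := h 0
    have h1 := h (Pi.single k 1)
    simp only [Matrix.mulVec_zero, zero_add] at h0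
    rw [Matrix.mulVec_add, add_assoc, h0, add_zero, Matrix.mulVec_mulVec] at h1
    rw [h1, Matrix.one_mulVec]
  have hd : M.det * M.det = 1 := by rw [← Matrix.det_mul, hMM, Matrix.det_one]
  rcases mul_self_eq_one_iff.1 hd with e | e <;> simp [e]

/-- The chart at the facet `0`. -/
noncomputable def base (z : Fin n → ℝ) : Fin n → ℝ := fun k => z k + (1 - sm z) / ((n : ℝ) + 1)

/-- The chart at the facet `i`. -/
noncomputable def chart (i : Fin (n + 1)) (z : Fin n → ℝ) : Fin n → ℝ := flp i (base z)

lemma bc_base_zero (z : Fin n → ℝ) : bc (base z) 0 = (1 - sm z) / ((n : ℝ) + 1) := by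
  simp [base, Finset.sum_add_distrib, sm]
  field_simp
  ring

lemma bc_chart_self (i : Fin (n + 1)) (z : Fin n → ℝ) :
    bc (chart i z) i = (1 - sm z) / ((n : ℝ) + 1) := by
  rw [chart, bc_flp, Equiv.swap_apply_right, bc_base_zero]

lemma bc_chart (i : Fin (n + 1)) (z : Fin n → ℝ) (k : Fin n) :
    bc (chart i z) (Equiv.swap 0 i k.succ) = z k + (1 - sm z) / ((n : ℝ) + 1) := by
  rw [chart, bc_flp, Equiv.swap_apply_self]
  rfl

lemma chart_zero (i : Fin (n + 1)) : chart i (0 : Fin n → ℝ) = ctr n := by
  have : base (0 : Fin n → ℝ) = ctr n := funext fun k => by simp [base, sm, ctr]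
  refine bc_injective (funext fun j => ?_)
  rw [chart, bc_flp, this, bc_ctr, bc_ctr]

lemma sum_sq_chart (i : Fin (n + 1)) (z : Fin n → ℝ) :
    ∑ j, bc (chart i z) j ^ 2 = ∑ k, z k ^ 2 + (1 - sm z ^ 2) / ((n : ℝ) + 1) := by
  rw [← Equiv.sum_comp (Equiv.swap 0 i), Fin.sum_univ_succ]
  simp only [Equiv.swap_apply_left, bc_chart_self, bc_chart, add_sq, Finset.sum_add_distrib,
    ← Finset.sum_mul, ← Finset.mul_sum, Finset.sum_const, Finset.card_univ, Fintype.card_fin,
    nsmul_eq_mul]
  simp only [show ∑ k, z k = sm z from rfl]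
  field_simp
  ring

/-- Linear part of `base`. -/
noncomputable def baseMat (n : ℕ) : Matrix (Fin n) (Fin n) ℝ :=
  1 + Matrix.replicateCol Unit (fun _ : Fin n => -(1 / ((n : ℝ) + 1))) *
    Matrix.replicateRow Unit (fun _ : Fin n => (1 : ℝ))

lemma base_eq (z : Fin n → ℝ) : base z = baseMat n *ᵥ z + ctr n := by
  funext k
  simp [base, baseMat, ctr, Matrix.add_mulVec, ← Matrix.mulVec_mulVec, Matrix.mulVec, dotProduct,
    sm]
  ring

lemma det_baseMat : (baseMat n).det = 1 / ((n : ℝ) + 1) := by
  rw [baseMat, Matrix.det_one_add_replicateCol_mul_replicateRow]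
  simp [dotProduct]
  field_simp
  ring

lemma chart_affine (i : Fin (n + 1)) : ∃ (L : (Fin n → ℝ) →ₗ[ℝ] (Fin n → ℝ)),
    ∀ z, chart i z = ctr n + L z := by
  refine ⟨(flpLin i).comp (Matrix.mulVecLin (baseMat n)), fun z => ?_⟩
  have h0 := chart_zero (n := n) i
  have e : ∀ z, chart i z = flpLin i (base z) + flp i 0 := fun z => by
    rw [chart, flp_eq, LinearMap.toMatrix'_mulVec]
  rw [e, base_eq, Matrix.mulVec_zero, zero_add] at h0
  rw [e, base_eq, map_add, LinearMap.comp_apply, Matrix.mulVecLin_apply]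
  conv_rhs => rw [← h0]
  abel

@[fun_prop]
lemma continuous_base : Continuous (base (n := n)) := continuous_pi fun k => by
  simp only [base]
  fun_prop

@[fun_prop]
lemma continuous_chart (i : Fin (n + 1)) : Continuous (chart (n := n) i) := by
  refine continuous_pi fun k => ?_
  simp only [chart, flp, Fin.tail]
  fun_prop

lemma integral_chart (i : Fin (n + 1)) (A : Set (Fin n → ℝ)) (f : (Fin n → ℝ) → ℝ) :
    ∫ x in chart i '' A, f x = 1 / ((n : ℝ) + 1) * ∫ z in A, f (chart i z) := by
  have e : chart i '' A = (fun x => LinearMap.toMatrix' (flpLin i) *ᵥ x + flp i 0) ''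
      ((fun z => baseMat n *ᵥ z + ctr n) '' A) := by
    rw [image_image]
    exact image_congr fun z _ => by rw [chart, flp_eq, base_eq]
  have hd := abs_det_flp (n := n) i
  rw [e, Three.integral_affine _ (fun h => by rw [h, abs_zero] at hd; norm_num at hd) _ _ f, hd,
    one_mul, Three.integral_affine _ (by rw [det_baseMat]; positivity) _ A, det_baseMat,
    abs_of_pos (by positivity)]
  simp only [chart, ← flp_eq, ← base_eq]

/-- The cone where the coordinate `i` is the least one. -/
def cone (i : Fin (n + 1)) : Set (Fin n → ℝ) := {x | ∀ j, bc x i ≤ bc x j}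

lemma isClosed_cone (i : Fin (n + 1)) : IsClosed (cone (n := n) i) := by
  simp only [cone, Set.ofPred_forall]
  exact isClosed_iInter fun j => isClosed_le (by fun_prop) (by fun_prop)

lemma chart_mem_cone {i : Fin (n + 1)} {z : Fin n → ℝ} (hz : z ∈ orth n) :
    chart i z ∈ cone i := fun j => by
  obtain ⟨l, rfl⟩ : ∃ l, Equiv.swap 0 i l = j := (Equiv.swap 0 i).surjective j
  induction l using Fin.cases with
  | zero => rw [Equiv.swap_apply_left]
  | succ k => rw [bc_chart, bc_chart_self]; linarith [hz k]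

lemma exists_chart_eq {i : Fin (n + 1)} {x : Fin n → ℝ} (hx : x ∈ cone i) :
    ∃ z ∈ orth n, chart i z = x := by
  set y := flp i x with hy
  have h0 : bc y 0 = bc x i := by rw [hy, bc_flp, Equiv.swap_apply_left]
  refine ⟨fun k => y k - bc y 0, fun k => ?_, ?_⟩
  · have : bc y k.succ = y k := bc_succ y k
    show 0 ≤ y k - bc y 0
    rw [← this, h0, hy, bc_flp, sub_nonneg]
    exact hx _
  · rw [chart, show x = flp i y from (flp_flp i x).symm]
    congr 1
    funext k
    simp [base, sm, Finset.sum_sub_distrib]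
    field_simp
    ring

lemma exists_mem_cone (x : Fin n → ℝ) : ∃ i, x ∈ cone i := by
  obtain ⟨i, hi⟩ := Finite.exists_min (bc x)
  exact ⟨i, hi⟩

lemma chart_mem_simplex_iff {i : Fin (n + 1)} {z : Fin n → ℝ} (hz : z ∈ orth n) :
    chart i z ∈ cornerSimplex n ↔ sm z ≤ 1 := by
  rw [mem_simplex_iff]
  constructor
  · intro h
    have := h i
    rw [bc_chart_self, le_div_iff₀ (by positivity)] at this
    linarith
  · intro h j
    refine le_trans ?_ (chart_mem_cone (i := i) hz j)
    rw [bc_chart_self]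
    exact div_nonneg (by linarith) (by positivity)

lemma volume_hyperplane (a : Fin n) : volume {z : Fin n → ℝ | z a = 0} = 0 := by
  rw [volume_pi]
  exact Measure.pi_hyperplane _ a 0

lemma aedisjoint_cone {i j : Fin (n + 1)} (h : i ≠ j) :
    AEDisjoint volume (cone (n := n) i) (cone j) := by
  obtain ⟨l, hl⟩ := (Equiv.swap 0 i).surjective j
  induction l using Fin.cases with
  | zero => rw [Equiv.swap_apply_left] at hl; exact absurd hl h
  | succ k =>
    refine measure_mono_null (t := chart i '' {z | z k = 0}) ?_ ?_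
    · rintro x ⟨hi, hj⟩
      obtain ⟨z, hz, rfl⟩ := exists_chart_eq hi
      refine ⟨z, ?_, rfl⟩
      have h1 := hj i
      rw [← hl, bc_chart, bc_chart_self] at h1
      exact le_antisymm (by linarith) (hz k)
    · obtain ⟨L, hL⟩ := chart_affine (n := n) i
      rw [show chart i '' {z | z k = 0} = (fun y => ctr n + y) '' (L '' {z | z k = 0}) from by
        rw [image_image]; exact image_congr fun z _ => hL z]
      rw [image_add_left, measure_preimage_add, Measure.addHaar_image_linearMap, volume_hyperplane,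
        mul_zero]

/-- Integrals split over the cones. -/
lemma integral_split {A : Set (Fin n → ℝ)} (hA : IsCompact A) {f : (Fin n → ℝ) → ℝ}
    (hf : Continuous f) (B : Fin (n + 1) → Set (Fin n → ℝ))
    (hB : ∀ i, ∀ z ∈ orth n, z ∈ B i ↔ chart i z ∈ A) :
    ∫ x in A, f x = ∑ i, 1 / ((n : ℝ) + 1) * ∫ z in orth n ∩ B i, f (chart i z) := by
  have e : ∀ i, chart i '' (orth n ∩ B i) = A ∩ cone i := fun i => by
    ext x
    constructor
    · rintro ⟨z, ⟨hz, hzB⟩, rfl⟩
      exact ⟨(hB i z hz).1 hzB, chart_mem_cone hz⟩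
    · rintro ⟨hx, hc⟩
      obtain ⟨z, hz, rfl⟩ := exists_chart_eq hc
      exact ⟨z, ⟨hz, (hB i z hz).2 hx⟩, rfl⟩
  simp only [← integral_chart, e]
  have hU : A = ⋃ i, A ∩ cone i := by
    rw [← inter_iUnion, inter_eq_left.2 fun x _ => mem_iUnion.2 (exists_mem_cone x)]
  conv_lhs => rw [hU]
  rw [integral_iUnion_ae (fun i => (hA.measurableSet.inter
    (isClosed_cone i).measurableSet).nullMeasurableSet)
    (fun i j hij => (aedisjoint_cone hij).mono inter_subset_right inter_subset_right)
    (by rw [← hU]; exact hf.continuousOn.integrableOn_compact hA), tsum_fintype]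

end Vale.Agent.P254.Local
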