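import Vale.Agent.P254.Local.Orthant

/-!
For a convex nonnegative function on a shifted orthant, the weight `∑ (z i - a) ^ 2` gives at least
the share `2 / (m + 1)` of the weight `(∑ (z i - a)) ^ 2`.
-/

open MeasureTheory Set Filter
open scoped ENNReal

namespace Vale.Agent.P254.Local

variable {n : ℕ}

/-- The part of the orthant with exactly the coordinates in `T` at least `a`. -/
def part (a : ℝ) (T : Finset (Fin n)) : Set (Fin n → ℝ) :=
  {z | ∀ i, 0 ≤ z i ∧ (a ≤ z i ↔ i ∈ T)}

/-- The excess over `a` of the coordinates in `T`. -/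
def exc (a : ℝ) (T : Finset (Fin n)) (z : Fin n → ℝ) : Fin n → ℝ := fun i =>
  if i ∈ T then z i - a else 0

/-- The total excess. -/
def ext1 (a : ℝ) (T : Finset (Fin n)) (z : Fin n → ℝ) : ℝ := ∑ i ∈ T, (z i - a)

/-- The sum of the squared excesses. -/
def ext2 (a : ℝ) (T : Finset (Fin n)) (z : Fin n → ℝ) : ℝ := ∑ i ∈ T, (z i - a) ^ 2

lemma part_subset (a : ℝ) (T : Finset (Fin n)) : part a T ⊆ orth n := fun _ hz i => (hz i).1

lemma measurableSet_part (a : ℝ) (T : Finset (Fin n)) : MeasurableSet (part a T) := by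
  simp only [part, Set.ofPred_forall]
  refine MeasurableSet.iInter fun i => ?_
  by_cases h : i ∈ T <;> simp only [h, iff_true, iff_false, not_le, Set.ofPred_and]
  · exact (measurableSet_le measurable_const (measurable_pi_apply i)).inter
      (measurableSet_le measurable_const (measurable_pi_apply i))
  · exact (measurableSet_le measurable_const (measurable_pi_apply i)).inter
      (measurableSet_lt (measurable_pi_apply i) measurable_const)

lemma part_disjoint (a : ℝ) : Pairwise (Function.onFun Disjoint fun T => part (n := n) a T) :=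
  fun _ _ h => Set.disjoint_left.2 fun _ h1 h2 =>
    h (Finset.ext fun i => (h1 i).2.symm.trans (h2 i).2)

lemma iUnion_part (a : ℝ) : ⋃ T : Finset (Fin n), part a T = orth n := by
  refine subset_antisymm (Set.iUnion_subset (part_subset a)) fun z hz => ?_
  exact Set.mem_iUnion.2 ⟨Finset.univ.filter fun i => a ≤ z i, fun i => ⟨hz i, by simp⟩⟩

lemma ext1_nonneg {a : ℝ} {T : Finset (Fin n)} {z : Fin n → ℝ} (hz : z ∈ part a T) :
    0 ≤ ext1 a T z :=
  Finset.sum_nonneg fun i hi => sub_nonneg.2 ((hz i).2.2 hi)

/-- The lower integral with the weight `exp (-∑ z)` over a part. -/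
noncomputable def wint (a : ℝ) (T : Finset (Fin n)) (F : (Fin n → ℝ) → ℝ) : ℝ≥0∞ :=
  ∫⁻ z in part a T, ENNReal.ofReal (F z * Real.exp (-sm z))

lemma sm_single (i : Fin n) (w : ℝ) : sm (Pi.single i w) = w := by simp [sm]

/-- Moving one coordinate. -/
lemma move_one {f : (Fin n → ℝ) → ℝ} (hf : Continuous f) {a : ℝ} (ha : 0 ≤ a) {T : Finset (Fin n)}
    (hf0 : ∀ z ∈ part a T, 0 ≤ f z) {i : Fin n} (hi : i ∈ T) :
    ∫⁻ y in part a T, ∫⁻ w in Ioi (0 : ℝ),
        ENNReal.ofReal ((y i - a) * f (y + Pi.single i w) * Real.exp (-(sm y + w))) =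
      wint a T fun z => f z * ((z i - a) ^ 2 / 2) := by
  set g : ℝ → (Fin n → ℝ) → ℝ≥0∞ := fun w z =>
    ENNReal.ofReal ((z i - w - a) * f z * Real.exp (-sm z)) with hg
  set P : ℝ → Set (Fin n → ℝ) := fun w => {z | z - Pi.single i w ∈ part a T}
  have hP : ∀ w, 0 ≤ w → ∀ z, z ∈ P w ↔ z ∈ part a T ∧ a + w ≤ z i := fun w hw z => by
    simp only [P, part, mem_ofPred_eq, Pi.sub_apply]
    constructor
    · intro h
      have hiz : a + w ≤ z i := by
        have := (h i).2.2 hi
        simp only [Pi.single_eq_same] at this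
        linarith
      refine ⟨fun l => ?_, hiz⟩
      by_cases hl : l = i
      · subst hl
        exact ⟨by linarith, ⟨fun _ => hi, fun _ => by linarith⟩⟩
      · simpa [hl] using h l
    · rintro ⟨h, hiz⟩ l
      by_cases hl : l = i
      · subst hl
        simp only [Pi.single_eq_same]
        exact ⟨by linarith, ⟨fun _ => hi, fun _ => by linarith⟩⟩
      · simpa [hl] using h l
  have e1 : ∀ w, ∫⁻ y in part a T,
      ENNReal.ofReal ((y i - a) * f (y + Pi.single i w) * Real.exp (-(sm y + w))) =
        ∫⁻ z in P w, g w z := fun w => by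
    have hm : MeasurableSet (P w) :=
      measurableSet_part a T |>.preimage (measurable_id.sub_const _)
    rw [← lintegral_indicator (measurableSet_part a T), ← lintegral_indicator hm,
      ← lintegral_add_right_eq_self ((P w).indicator (g w)) (Pi.single i w)]
    refine lintegral_congr fun y => ?_
    by_cases hy : y ∈ part a T <;> simp [P, hg, hy, sm_add, sm_single]
  have hmeas : Measurable (Function.uncurry fun (w : ℝ) (y : Fin n → ℝ) =>
      ENNReal.ofReal ((y i - a) * f (y + Pi.single i w) * Real.exp (-(sm y + w)))) := by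
    refine ENNReal.measurable_ofReal.comp (Continuous.measurable ?_)
    have : Continuous fun p : ℝ × (Fin n → ℝ) => p.2 + Pi.single i p.1 :=
      continuous_snd.add ((continuous_single i).comp continuous_fst)
    exact (((continuous_apply i).comp continuous_snd |>.sub continuous_const).mul
      (hf.comp this)).mul (by fun_prop)
  rw [← lintegral_lintegral_swap hmeas.aemeasurable, lintegral_congr e1]
  set H : ℝ → (Fin n → ℝ) → ℝ≥0∞ := fun w z =>
    if a + w ≤ z i then g w z else 0 with hH
  have e2 : ∀ w ∈ Ioi (0 : ℝ), ∫⁻ z in P w, g w z = ∫⁻ z in part a T, H w z := fun w hw => by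
    have hs : P w = part a T ∩ {z | a + w ≤ z i} := by
      ext z; exact hP w (le_of_lt hw) z
    have hm : MeasurableSet {z : Fin n → ℝ | a + w ≤ z i} :=
      measurableSet_le measurable_const (measurable_pi_apply i)
    rw [hs, Set.inter_comm, ← Measure.restrict_restrict hm, ← lintegral_indicator hm]
    exact lintegral_congr fun z => by simp [Set.indicator_apply, hH]
  rw [setLIntegral_congr_fun measurableSet_Ioi e2]
  have hHm : Measurable (Function.uncurry H) := by
    refine Measurable.ite (measurableSet_le (measurable_const.add measurable_fst)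
      ((measurable_pi_apply i).comp measurable_snd))
      (ENNReal.measurable_ofReal.comp (Continuous.measurable ?_)) measurable_const
    exact ((((continuous_apply i).comp continuous_snd).sub continuous_fst).sub continuous_const
      |>.mul (hf.comp continuous_snd)).mul (by fun_prop)
  rw [lintegral_lintegral_swap hHm.aemeasurable]
  refine setLIntegral_congr_fun (measurableSet_part a T) fun z hz => ?_
  set c := z i - a with hc
  have hc0 : 0 ≤ c := sub_nonneg.2 ((hz i).2.2 hi)
  set q := f z * Real.exp (-sm z) with hq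
  have hq0 : 0 ≤ q := mul_nonneg (hf0 z hz) (Real.exp_pos _).le
  have e : ∀ w, H w z = (Iic c).indicator (fun w => ENNReal.ofReal ((c - w) * q)) w := fun w => by
    simp only [hH, hg, Set.indicator_apply, mem_Iic, hc, hq]
    refine ite_congr (propext le_sub_iff_add_le'.symm) (fun _ => ?_) fun _ => rfl
    congr 1; ring
  rw [lintegral_congr e, lintegral_indicator measurableSet_Iic,
    Measure.restrict_restrict measurableSet_Iic, Iic_inter_Ioi]
  have hint : IntegrableOn (fun w => (c - w) * q) (Ioc 0 c) :=
    (by fun_prop : Continuous fun w => (c - w) * q).integrableOn_Ioc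
  rw [← ofReal_integral_eq_lintegral_ofReal hint ((ae_restrict_iff' measurableSet_Ioc).2
    (ae_of_all _ fun w hw => mul_nonneg (sub_nonneg.2 hw.2) hq0))]
  congr 1
  rw [integral_mul_const, ← intervalIntegral.integral_of_le hc0,
    intervalIntegral.integral_sub intervalIntegrable_const intervalIntegral.intervalIntegrable_id,
    intervalIntegral.integral_const,
    integral_id, smul_eq_mul, hq]
  ring

/-- The Jacobian factor of moving along the excess. -/
lemma lintegral_stretch (a : ℝ) (T : Finset (Fin n)) {t : ℝ} (ht : 0 ≤ t)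
    (g : (Fin n → ℝ) → ℝ≥0∞) :
    ∫⁻ z, g z = ENNReal.ofReal ((1 + t) ^ T.card) * ∫⁻ y, g (y + t • exc a T y) := by
  set d : Fin n → ℝ := fun i => if i ∈ T then 1 + t else 1 with hd
  set c : Fin n → ℝ := fun i => if i ∈ T then -(t * a) else 0
  have e : ∀ y : Fin n → ℝ, y + t • exc a T y = (Matrix.diagonal d).toLin' y + c := fun y => by
    ext i
    simp only [Pi.add_apply, Pi.smul_apply, smul_eq_mul, exc, Matrix.toLin'_apply,
      Matrix.mulVec_diagonal, c, d]
    split_ifs <;> ring
  have hprod : |∏ i, d i| = (1 + t) ^ T.card := by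
    rw [hd, Finset.prod_ite_mem, Finset.univ_inter, Finset.prod_const, abs_of_nonneg (by positivity)]
  have hne : ∀ i, d i ≠ 0 := fun i => by
    simp only [hd]; split_ifs <;> [positivity; norm_num]
  have hmap := Real.smul_map_diagonal_volume_pi (D := d)
    (by rw [Matrix.det_diagonal]; exact Finset.prod_ne_zero_iff.2 fun i _ => hne i)
  rw [Matrix.det_diagonal, hprod] at hmap
  have hL : MeasurableEmbedding (Matrix.diagonal d).toLin' := by
    have hdet : LinearMap.det (Matrix.diagonal d).toLin' ≠ 0 := by
      rw [LinearMap.det_toLin', Matrix.det_diagonal]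
      exact Finset.prod_ne_zero_iff.2 fun i _ => hne i
    exact ((Matrix.diagonal d).toLin'.equivOfDetNeZero hdet).toContinuousLinearEquiv.toHomeomorph.measurableEmbedding
  simp only [e]
  rw [← lintegral_add_right_eq_self g c]
  conv_lhs => rw [← hmap, lintegral_smul_measure, hL.lintegral_map, smul_eq_mul]

lemma integral_rpow_neg_succ (m : ℕ) :
    IntegrableOn (fun t : ℝ => 1 / (1 + t) ^ (m + 2)) (Ioi 0) ∧
      ∫ t in Ioi (0 : ℝ), 1 / (1 + t) ^ (m + 2) = 1 / (m + 1) := by
  set F : ℝ → ℝ := fun t => -(1 / ((m + 1) * (1 + t) ^ (m + 1)))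
  have hd : ∀ t ∈ Ici (0 : ℝ), HasDerivAt F (1 / (1 + t) ^ (m + 2)) t := fun t ht => by
    have ht' : 0 < 1 + t := by linarith [mem_Ici.1 ht]
    have h1 : HasDerivAt (fun t : ℝ => (m + 1 : ℝ) * (1 + t) ^ (m + 1))
        ((m + 1 : ℝ) * (((m + 1 : ℕ) : ℝ) * (1 + t) ^ m * 1)) t :=
      ((((hasDerivAt_id t).const_add 1).pow (m + 1)).const_mul _)
    refine ((h1.inv (by positivity)).neg.congr_of_eventuallyEq ?_).congr_deriv ?_
    · filter_upwards with s
      simp [F, one_div]
    · push_cast
      field_simp
      ring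
  have htend : Tendsto F atTop (nhds 0) := by
    have h : Tendsto (fun t : ℝ => ((m : ℝ) + 1) * (1 + t) ^ (m + 1)) atTop atTop :=
      ((tendsto_pow_atTop (Nat.succ_ne_zero m)).comp
        (tendsto_atTop_add_const_left _ 1 tendsto_id)).const_mul_atTop (by positivity)
    have := h.inv_tendsto_atTop.neg
    simpa [F, one_div] using this
  have hnn : ∀ t ∈ Ioi (0 : ℝ), 0 ≤ 1 / (1 + t) ^ (m + 2) := fun t ht => by
    have := mem_Ioi.1 ht
    positivity
  refine ⟨integrableOn_Ioi_deriv_of_nonneg' hd hnn htend, ?_⟩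
  rw [integral_Ioi_of_hasDerivAt_of_nonneg' hd hnn htend]
  simp [F]

/-- Moving along the excess. -/
lemma move_radial {f : (Fin n → ℝ) → ℝ} (hf : Continuous f) {a : ℝ} (ha : 0 ≤ a) (T : Finset (Fin n))
    (hf0 : ∀ z ∈ part a T, 0 ≤ f z) :
    ∫⁻ y in part a T, ∫⁻ w in Ioi (0 : ℝ),
        ENNReal.ofReal (ext1 a T y * f (y + (w / ext1 a T y) • exc a T y) *
          Real.exp (-(sm y + w))) =
      ENNReal.ofReal (1 / (T.card + 1)) * wint a T fun z => f z * ext1 a T z ^ 2 := by
  set m := T.card
  have hexc : Continuous (exc a T) := continuous_pi fun i => by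
    unfold exc; split_ifs <;> fun_prop
  have hext : Continuous (ext1 a T) := by unfold ext1; fun_prop
  have hscale : ∀ y : Fin n → ℝ, y ∈ part a T →
      ∫⁻ w in Ioi (0 : ℝ), ENNReal.ofReal (ext1 a T y * f (y + (w / ext1 a T y) • exc a T y) *
          Real.exp (-(sm y + w))) =
        ∫⁻ t in Ioi (0 : ℝ), ENNReal.ofReal (ext1 a T y ^ 2 * f (y + t • exc a T y) *
          Real.exp (-(sm y + t * ext1 a T y))) := fun y hy => by
    rcases (ext1_nonneg hy).eq_or_lt with hs | hs
    · simp [← hs]
    set s := ext1 a T y with hs'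
    have hm := Real.smul_map_volume_mul_left hs.ne'
    rw [abs_of_pos hs] at hm
    rw [← lintegral_indicator measurableSet_Ioi, ← lintegral_indicator measurableSet_Ioi]
    conv_lhs => rw [← hm, lintegral_smul_measure,
      (measurableEmbedding_mulLeft₀ hs.ne').lintegral_map, smul_eq_mul,
      ← lintegral_const_mul' _ _ ENNReal.ofReal_ne_top]
    refine lintegral_congr fun t => ?_
    simp only [Set.indicator_apply, mem_Ioi, mul_pos_iff_of_pos_left hs,
      mul_ite, mul_zero]
    refine ite_congr rfl (fun _ => ?_) fun _ => rfl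
    rw [← ENNReal.ofReal_mul hs.le, mul_div_cancel_left₀ _ hs.ne', mul_comm t s]
    congr 1; ring
  rw [setLIntegral_congr_fun (measurableSet_part a T) hscale]
  have hmeas : Measurable (Function.uncurry fun (y : Fin n → ℝ) (t : ℝ) =>
      ENNReal.ofReal (ext1 a T y ^ 2 * f (y + t • exc a T y) *
        Real.exp (-(sm y + t * ext1 a T y)))) :=
    ENNReal.measurable_ofReal.comp (Continuous.measurable (by fun_prop))
  rw [lintegral_lintegral_swap hmeas.aemeasurable]
  have e : ∀ t ∈ Ioi (0 : ℝ),
      ∫⁻ y in part a T, ENNReal.ofReal (ext1 a T y ^ 2 * f (y + t • exc a T y) *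
          Real.exp (-(sm y + t * ext1 a T y))) =
        ENNReal.ofReal (1 / (1 + t) ^ (m + 2)) * wint a T fun z => f z * ext1 a T z ^ 2 := by
    intro t ht
    have ht0 : (0 : ℝ) ≤ t := le_of_lt ht
    have h1t : (0 : ℝ) < 1 + t := by linarith
    have key : ∀ y, (part a T).indicator (fun y => ENNReal.ofReal (ext1 a T y ^ 2 *
          f (y + t • exc a T y) * Real.exp (-(sm y + t * ext1 a T y)))) y =
        ENNReal.ofReal (1 / (1 + t) ^ 2) * (part a T).indicator
          (fun z => ENNReal.ofReal (f z * ext1 a T z ^ 2 * Real.exp (-sm z)))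
          (y + t • exc a T y) := fun y => by
      have hmem : y + t • exc a T y ∈ part a T ↔ y ∈ part a T := by
        refine forall_congr' fun i => ?_
        by_cases h : i ∈ T
        · simp only [Pi.add_apply, Pi.smul_apply, smul_eq_mul, exc, h, if_true, iff_true]
          constructor <;> rintro ⟨p1, p2⟩
          · have h3 : (1 + t) * a ≤ (1 + t) * y i := by linarith
            have h4 : a ≤ y i := le_of_mul_le_mul_left h3 h1t
            exact ⟨ha.trans h4, h4⟩
          · have h3 : 0 ≤ t * (y i - a) := mul_nonneg ht0 (sub_nonneg.2 p2)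
            exact ⟨by linarith, by linarith⟩
        · simp [exc, h]
      have he1 : ext1 a T (y + t • exc a T y) = (1 + t) * ext1 a T y := by
        rw [ext1, ext1, Finset.mul_sum]
        exact Finset.sum_congr rfl fun i hi => by simp [exc, hi]; ring
      have hsm : sm (y + t • exc a T y) = sm y + t * ext1 a T y := by
        rw [sm_add, sm_smul]
        congr 2
        simp [sm, exc, ext1, Finset.sum_ite_mem]
      by_cases hy : y ∈ part a T
      swap
      · rw [Set.indicator_of_notMem hy, Set.indicator_of_notMem (mt hmem.1 hy), mul_zero]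
      rw [Set.indicator_of_mem hy, Set.indicator_of_mem (hmem.2 hy), he1, hsm,
        ← ENNReal.ofReal_mul (by positivity)]
      congr 1
      field_simp
    rw [← lintegral_indicator (measurableSet_part a T), lintegral_congr key,
      lintegral_const_mul' _ _ ENNReal.ofReal_ne_top, wint,
      ← lintegral_indicator (measurableSet_part a T), lintegral_stretch a T ht0
        ((part a T).indicator fun z => ENNReal.ofReal (f z * ext1 a T z ^ 2 * Real.exp (-sm z))),
      ← mul_assoc, ← ENNReal.ofReal_mul (by positivity)]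
    congr 2
    rw [pow_add]
    field_simp
    rfl
  obtain ⟨hi, hv⟩ := integral_rpow_neg_succ m
  rw [setLIntegral_congr_fun measurableSet_Ioi e, lintegral_mul_const _ (by fun_prop),
    ← ofReal_integral_eq_lintegral_ofReal hi ((ae_restrict_iff' measurableSet_Ioi).2
      (ae_of_all _ fun t ht => by have := mem_Ioi.1 ht; positivity)), hv]

/-- The core inequality on a part. -/
lemma core_ineq {f : (Fin n → ℝ) → ℝ} (hf : Continuous f) {a : ℝ} (ha : 0 ≤ a)
    {T : Finset (Fin n)} (hconv : ConvexOn ℝ (orth n) f) (hf0 : ∀ z ∈ orth n, 0 ≤ f z)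
    (C : ℝ) (j : ℕ) (hb : ∀ z ∈ orth n, f z ≤ C * (1 + sm z) ^ j) :
    2 / (T.card + 1) * ∫ z in part a T, f z * ext1 a T z ^ 2 * Real.exp (-sm z) ≤
      ∫ z in part a T, f z * ext2 a T z * Real.exp (-sm z) := by
  have hf0' : ∀ z ∈ part a T, 0 ≤ f z := fun z hz => hf0 z (part_subset a T hz)
  have hkey : ENNReal.ofReal (1 / (T.card + 1)) * wint a T (fun z => f z * ext1 a T z ^ 2) ≤
      ∑ i ∈ T, wint a T fun z => f z * ((z i - a) ^ 2 / 2) := by
    have hm : ∀ i, Measurable (Function.uncurry fun (y : Fin n → ℝ) (w : ℝ) =>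
        ENNReal.ofReal ((y i - a) * f (y + Pi.single i w) * Real.exp (-(sm y + w)))) := fun i => by
      refine ENNReal.measurable_ofReal.comp (Continuous.measurable ?_)
      exact (((continuous_apply i).comp continuous_fst |>.sub continuous_const).mul
        (hf.comp (continuous_fst.add ((continuous_single i).comp continuous_snd)))).mul
        (by fun_prop)
    rw [← move_radial hf ha T hf0', ← Finset.sum_congr rfl fun i hi => move_one hf ha hf0' hi,
      ← lintegral_finsetSum _ fun i _ => (hm i).lintegral_prod_right]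
    refine setLIntegral_mono' (measurableSet_part a T) fun y hy => ?_
    rw [← lintegral_finsetSum _ fun i _ => (hm i).of_uncurry_left]
    refine setLIntegral_mono' measurableSet_Ioi fun w hw => ?_
    have hw0 : (0 : ℝ) ≤ w := le_of_lt hw
    have hy0 : ∀ i, 0 ≤ y i := fun i => (hy i).1
    have hmemi : ∀ i, y + Pi.single i w ∈ orth n := fun i l => by
      have : 0 ≤ (Pi.single i w : Fin n → ℝ) l := by
        by_cases hl : l = i
        · subst hl; simpa using hw0
        · simp [hl]
      exact add_nonneg (hy0 l) this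
    rw [← ENNReal.ofReal_sum_of_nonneg fun i hi => mul_nonneg (mul_nonneg
      (sub_nonneg.2 ((hy i).2.2 hi)) (hf0 _ (hmemi i))) (Real.exp_pos _).le, ← Finset.sum_mul]
    refine ENNReal.ofReal_le_ofReal (mul_le_mul_of_nonneg_right ?_ (Real.exp_pos _).le)
    rcases (ext1_nonneg hy).eq_or_lt with hs | hs
    · rw [← hs, zero_mul]
      exact Finset.sum_nonneg fun i hi =>
        mul_nonneg (sub_nonneg.2 ((hy i).2.2 hi)) (hf0 _ (hmemi i))
    set s := ext1 a T y with hs'
    have hsum : ∑ i ∈ T, (y i - a) / s = 1 := by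
      rw [← Finset.sum_div]; exact div_self hs.ne'
    have h := hconv.map_sum_le (t := T) (w := fun i => (y i - a) / s)
      (p := fun i => y + Pi.single i w)
      (fun i hi => div_nonneg (sub_nonneg.2 ((hy i).2.2 hi)) hs.le) hsum fun i _ => hmemi i
    have e : ∑ i ∈ T, ((y i - a) / s) • (y + Pi.single i w) = y + (w / s) • exc a T y := by
      simp only [smul_add, Finset.sum_add_distrib, ← Finset.sum_smul, hsum, one_smul]
      congr 1
      ext l
      simp only [Finset.sum_apply, Pi.smul_apply, smul_eq_mul, Pi.single_apply, mul_ite, mul_zero,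
        Finset.sum_ite_eq, exc]
      split_ifs <;> ring
    rw [e] at h
    have := mul_le_mul_of_nonneg_left h hs.le
    rw [Finset.mul_sum] at this
    refine this.trans (le_of_eq (Finset.sum_congr rfl fun i _ => ?_))
    rw [smul_eq_mul, ← mul_assoc, mul_div_cancel₀ _ hs.ne']
  have hsq : ∀ z ∈ part a T, ext1 a T z ≤ sm z ∧ ∀ i ∈ T, z i - a ≤ sm z := fun z hz => by
    have h0 := part_subset a T hz
    refine ⟨(Finset.sum_le_sum (g := fun i => z i) fun i _ => by linarith).trans
      (Finset.sum_le_sum_of_subset_of_nonneg (Finset.subset_univ T) fun i _ _ => h0 i),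
      fun i _ => ?_⟩
    linarith [Finset.single_le_sum (f := fun i => z i) (fun i _ => h0 i) (Finset.mem_univ i),
      show sm z = ∑ i, z i from rfl]
  have conv : ∀ g : (Fin n → ℝ) → ℝ, Continuous g → (∀ z ∈ part a T, 0 ≤ g z) →
      (∀ z ∈ part a T, g z ≤ sm z ^ 2) →
      IntegrableOn (fun z => f z * g z * Real.exp (-sm z)) (part a T) ∧
      wint a T (fun z => f z * g z) =
        ENNReal.ofReal (∫ z in part a T, f z * g z * Real.exp (-sm z)) := by
    intro g hg hg0 hg1
    have hdom : IntegrableOn (fun z => f z * sm z ^ 2 * Real.exp (-sm z)) (part a T) := by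
      refine (integrableOn_weight (f := fun z => f z * sm z ^ 2) (hf.mul (continuous_sm.pow 2)) C
        (j + 2) fun z hz => ?_).mono_set (part_subset a T)
      have hs := sm_nonneg hz
      rw [abs_of_nonneg (mul_nonneg (hf0 z hz) (sq_nonneg _))]
      calc f z * sm z ^ 2 ≤ C * (1 + sm z) ^ j * (1 + sm z) ^ 2 :=
            mul_le_mul (hb z hz) (pow_le_pow_left₀ hs (by linarith) 2) (sq_nonneg _)
              ((hf0 z hz).trans (hb z hz))
        _ = _ := by ring
    have hint : IntegrableOn (fun z => f z * g z * Real.exp (-sm z)) (part a T) := by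
      refine hdom.mono' ((hf.mul hg).mul (by fun_prop)).aestronglyMeasurable
        ((ae_restrict_iff' (measurableSet_part a T)).2 (ae_of_all _ fun z hz => ?_))
      rw [Real.norm_eq_abs,
        abs_of_nonneg (mul_nonneg (mul_nonneg (hf0' z hz) (hg0 z hz)) (Real.exp_pos _).le)]
      exact mul_le_mul_of_nonneg_right (mul_le_mul_of_nonneg_left (hg1 z hz) (hf0' z hz))
        (Real.exp_pos _).le
    exact ⟨hint, (ofReal_integral_eq_lintegral_ofReal hint
      ((ae_restrict_iff' (measurableSet_part a T)).2 (ae_of_all _ fun z hz =>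
        mul_nonneg (mul_nonneg (hf0' z hz) (hg0 z hz)) (Real.exp_pos _).le))).symm⟩
  obtain ⟨-, v1⟩ := conv (fun z => ext1 a T z ^ 2) (by unfold ext1; fun_prop)
    (fun z _ => sq_nonneg _) fun z hz => pow_le_pow_left₀ (ext1_nonneg hz) (hsq z hz).1 2
  have v2 : ∀ i ∈ T, IntegrableOn (fun z => f z * ((z i - a) ^ 2 / 2) * Real.exp (-sm z))
      (part a T) ∧ wint a T (fun z => f z * ((z i - a) ^ 2 / 2)) =
        ENNReal.ofReal (∫ z in part a T, f z * ((z i - a) ^ 2 / 2) * Real.exp (-sm z)) :=
    fun i hi => conv _ (by fun_prop) (fun z _ => by positivity) fun z hz => by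
      have := pow_le_pow_left₀ (sub_nonneg.2 ((hz i).2.2 hi)) ((hsq z hz).2 i hi) 2
      linarith [sq_nonneg (sm z)]
  have pos : ∀ i, 0 ≤ ∫ z in part a T, f z * ((z i - a) ^ 2 / 2) * Real.exp (-sm z) := fun i =>
    setIntegral_nonneg (measurableSet_part a T) fun z hz =>
      mul_nonneg (mul_nonneg (hf0' z hz) (by positivity)) (Real.exp_pos _).le
  rw [v1, Finset.sum_congr rfl fun i hi => (v2 i hi).2, ← ENNReal.ofReal_mul (by positivity),
    ← ENNReal.ofReal_sum_of_nonneg fun i _ => pos i,
    ENNReal.ofReal_le_ofReal_iff (Finset.sum_nonneg fun i _ => pos i),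
    ← integral_finsetSum _ fun i hi => (v2 i hi).1] at hkey
  have e : ∫ z in part a T, ∑ i ∈ T, f z * ((z i - a) ^ 2 / 2) * Real.exp (-sm z) =
      (∫ z in part a T, f z * ext2 a T z * Real.exp (-sm z)) / 2 := by
    rw [← integral_div]
    refine setIntegral_congr_fun (measurableSet_part a T) fun z _ => ?_
    rw [ext2, Finset.mul_sum, Finset.sum_mul, Finset.sum_div]
    exact Finset.sum_congr rfl fun i _ => by ring
  rw [e] at hkey
  calc _ = 2 * (1 / ((T.card : ℝ) + 1) * _) := by ring
    _ ≤ 2 * ((∫ z in part a T, f z * ext2 a T z * Real.exp (-sm z)) / 2) :=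
      mul_le_mul_of_nonneg_left hkey zero_le_two
    _ = _ := by ring

end Vale.Agent.P254.Local
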