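import Vale.Agent.P254.Local.Charts
import Vale.Agent.P254.Orlicz.Simplex
import Vale.Agent.P254.Refl.Main

/-!
A gain of the quadratic form of the simplex lowers the isotropic constant.
-/

open MeasureTheory Set
open scoped Matrix Nat

namespace Vale.Agent.P254.Local

variable {n : ℕ}

/-- The inverse covariance form of the simplex at its centre, in barycentric coordinates. -/
def quad (x : Fin n → ℝ) : ℝ := ((n : ℝ) + 2) * (((n : ℝ) + 1) * ∑ j, bc x j ^ 2 - 1)

@[fun_prop]
lemma continuous_quad : Continuous (quad (n := n)) := by unfold quad; fun_prop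

lemma quad_eq (x : Fin n → ℝ) : quad x = ((n : ℝ) + 1) * ((n : ℝ) + 2) *
    (∑ k, (x k - ctr n k) ^ 2 + (∑ k, (x k - ctr n k)) ^ 2) := by
  simp [quad, ctr, Fin.sum_univ_succ, sub_sq, Finset.sum_add_distrib, Finset.sum_sub_distrib,
    ← Finset.mul_sum, ← Finset.sum_mul]
  field_simp
  ring

lemma det_le_exp_trace {S : Matrix (Fin n) (Fin n) ℝ} (hS : S.PosSemidef) :
    S.det ≤ Real.exp (S.trace - n) := by
  have ht := hS.isHermitian.trace_eq_sum_eigenvalues
  simp only [RCLike.ofReal_real_eq_id, id_eq] at ht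
  rw [hS.isHermitian.det_eq_prod_eigenvalues]
  simp only [RCLike.ofReal_real_eq_id, id_eq]
  calc ∏ i, hS.isHermitian.eigenvalues i ≤ ∏ i, Real.exp (hS.isHermitian.eigenvalues i - 1) :=
        Finset.prod_le_prod (fun i _ => hS.eigenvalues_nonneg i) fun i _ => by
          linarith [Real.add_one_le_exp (hS.isHermitian.eigenvalues i - 1)]
    _ = _ := by
      rw [← Real.exp_sum, Finset.sum_sub_distrib, ← ht]
      simp

lemma exists_root : ∃ W : Matrix (Fin n) (Fin n) ℝ,
    W.det ^ 2 = (((n : ℝ) + 1) * ((n : ℝ) + 2)) ^ n * ((n : ℝ) + 1) ∧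
      ∀ x, ∑ i, ((W *ᵥ (x - ctr n)) i) ^ 2 = quad x := by
  rcases Nat.eq_zero_or_pos n with rfl | hn
  · exact ⟨1, by simp, fun x => by simp [quad_eq]⟩
  set s := Real.sqrt (((n : ℝ) + 1) * ((n : ℝ) + 2)) with hs
  set γ := (Real.sqrt ((n : ℝ) + 1) - 1) / n with hγ
  have hn0 : (0 : ℝ) < n := by exact_mod_cast hn
  have h1 : Real.sqrt ((n : ℝ) + 1) ^ 2 = (n : ℝ) + 1 := Real.sq_sqrt (by positivity)
  have h2 : s ^ 2 = ((n : ℝ) + 1) * ((n : ℝ) + 2) := Real.sq_sqrt (by positivity)
  have hng : 1 + (n : ℝ) * γ = Real.sqrt ((n : ℝ) + 1) := by rw [hγ]; field_simp; ring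
  set W : Matrix (Fin n) (Fin n) ℝ := s • (1 + Matrix.replicateCol Unit (fun _ : Fin n => γ) *
    Matrix.replicateRow Unit (fun _ : Fin n => (1 : ℝ))) with hW
  refine ⟨W, ?_, fun x => ?_⟩
  · rw [hW, Matrix.det_smul, Fintype.card_fin, Matrix.det_one_add_replicateCol_mul_replicateRow,
      mul_pow, ← pow_mul, mul_comm n 2, pow_mul, h2]
    congr 1
    simp [dotProduct, hng, h1]
  · set v := x - ctr n with hv
    have hi : ∀ i, (W *ᵥ v) i = s * (v i + γ * ∑ k, v k) := fun i => by
      simp [hW, Matrix.mulVec, dotProduct, Matrix.mul_apply, Matrix.one_apply, add_mul, mul_add,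
        Finset.sum_add_distrib, mul_assoc, Finset.mul_sum]
    simp only [hi, mul_pow, h2, ← Finset.mul_sum, quad_eq, add_sq, Finset.sum_add_distrib,
      ← Finset.sum_mul, Finset.sum_const, Finset.card_univ, Fintype.card_fin, nsmul_eq_mul]
    have : 2 * γ + (n : ℝ) * γ ^ 2 = 1 := by
      have : (1 + (n : ℝ) * γ) ^ 2 = (n : ℝ) + 1 := by rw [hng, h1]
      have e : (n : ℝ) * (2 * γ + (n : ℝ) * γ ^ 2) = (n : ℝ) * 1 := by linear_combination this
      exact mul_left_cancel₀ hn0.ne' e
    simp only [hv, Pi.sub_apply]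
    linear_combination ((n : ℝ) + 1) * ((n : ℝ) + 2) * (∑ k, (x k - ctr n k)) ^ 2 * this

lemma det_cov_le {K : Set (Fin n → ℝ)} (hc : IsCompact K) (hV : 0 < volume.real K) :
    (cov K).det * ((((n : ℝ) + 1) * ((n : ℝ) + 2)) ^ n * ((n : ℝ) + 1)) ≤
      Real.exp ((volume.real K)⁻¹ * (∫ x in K, quad x) - n) := by
  obtain ⟨W, hW, hq⟩ := exists_root (n := n)
  set T := W * cov K * Wᵀ with hT
  have hpsd : T.PosSemidef := by
    have := (Refl.cov_posSemidef hc).mul_mul_conjTranspose_same W
    simpa [hT] using this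
  have hdet : T.det = (cov K).det * ((((n : ℝ) + 1) * ((n : ℝ) + 2)) ^ n * ((n : ℝ) + 1)) := by
    rw [hT, Matrix.det_mul, Matrix.det_mul, Matrix.det_transpose, ← hW]; ring
  rw [← hdet]
  refine (det_le_exp_trace hpsd).trans (Real.exp_le_exp.2 (sub_le_sub_right ?_ _))
  have hint : ∀ F : (Fin n → ℝ) → ℝ, Continuous F → IntegrableOn F K := fun F hF =>
    hF.continuousOn.integrableOn_compact hc
  have hb : ∀ k, ∫ x in K, x k = bary K k * volume.real K := fun k => by
    rw [bary]; field_simp
  have key : ∀ i, T i i ≤ (volume.real K)⁻¹ * ∫ x in K, (∑ k, W i k * (x k - ctr n k)) ^ 2 := by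
    intro i
    have e : T i i = (volume.real K)⁻¹ *
        ∫ x in K, (∑ k, W i k * (x k - bary K k)) ^ 2 := by
      simp only [sq, Finset.sum_mul_sum]
      simp only [hT, Matrix.mul_apply, Matrix.transpose_apply, cov, Matrix.of_apply, Finset.sum_mul]
      rw [integral_finsetSum _ fun k _ => hint _ (by fun_prop), Finset.sum_comm, Finset.mul_sum]
      refine Finset.sum_congr rfl fun k _ => ?_
      rw [integral_finsetSum _ fun l _ => hint _ (by fun_prop), Finset.mul_sum]
      refine Finset.sum_congr rfl fun l _ => ?_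
      rw [show (fun x : Fin n → ℝ => W i k * (x k - bary K k) * (W i l * (x l - bary K l))) =
        fun x => W i k * W i l * ((x k - bary K k) * (x l - bary K l)) from funext fun x => by ring,
        integral_const_mul]
      ring
    rw [e]
    refine mul_le_mul_of_nonneg_left ?_ (inv_nonneg.2 hV.le)
    set c := ∑ k, W i k * (bary K k - ctr n k) with hc'
    have hs : ∀ x : Fin n → ℝ, (∑ k, W i k * (x k - ctr n k)) ^ 2 =
        (∑ k, W i k * (x k - bary K k)) ^ 2 + 2 * c * ∑ k, W i k * (x k - bary K k) + c ^ 2 :=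
      fun x => by
        have : ∑ k, W i k * (x k - ctr n k) = ∑ k, W i k * (x k - bary K k) + c := by
          rw [hc', ← Finset.sum_add_distrib]
          exact Finset.sum_congr rfl fun k _ => by ring
        rw [this]; ring
    have h0 : ∫ x in K, ∑ k, W i k * (x k - bary K k) = 0 := by
      rw [integral_finsetSum _ fun k _ => hint _ (by fun_prop)]
      refine Finset.sum_eq_zero fun k _ => ?_
      rw [integral_const_mul, integral_sub (hint _ (by fun_prop)) (hint _ (by fun_prop)),
        setIntegral_const, smul_eq_mul, hb]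
      ring
    simp only [hs]
    rw [integral_add (hint _ (by fun_prop)) (hint _ (by fun_prop)),
      integral_add (hint _ (by fun_prop)) (hint _ (by fun_prop)), integral_const_mul, h0,
      setIntegral_const, smul_eq_mul]
    nlinarith [mul_nonneg hV.le (sq_nonneg c)]
  refine (Finset.sum_le_sum fun i _ => key i).trans_eq ?_
  rw [← Finset.mul_sum, ← integral_finsetSum _ fun i _ => hint _ (by fun_prop)]
  congr 1
  refine setIntegral_congr_fun hc.measurableSet fun x _ => ?_
  rw [← hq x]
  simp [Matrix.mulVec, dotProduct]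

lemma volume_simplex (m : ℕ) : volume.real (cornerSimplex (m + 2)) = 1 / (m + 2)! := by
  rw [← Orlicz.body_lin]
  show Orlicz.S (Orlicz.lin (m + 2)) 1 = _
  rw [Orlicz.S_lin, Orlicz.P_of_nonneg _ zero_le_one, one_pow]

lemma integral_quad_simplex (m : ℕ) :
    ∫ x in cornerSimplex (m + 2), quad x =
      ((m : ℝ) + 2) * volume.real (cornerSimplex (m + 2)) := by
  set D := cornerSimplex (m + 2) with hD
  have hv : volume.real D ≠ 0 := by rw [hD, volume_simplex]; positivity
  have hint : ∀ F : (Fin (m + 2) → ℝ) → ℝ, Continuous F → IntegrableOn F D := fun F hF =>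
    hF.continuousOn.integrableOn_compact isCompact_simplex
  have hc : ∀ k l, ∫ x in D, (x k - ctr (m + 2) k) * (x l - ctr (m + 2) l) =
      volume.real D * cov D k l := fun k l => by
    have hb : ∀ k, ctr (m + 2) k = bary D k := fun k => by
      rw [hD, Orlicz.bary_simplex, ctr]; push_cast; ring
    simp only [hb, cov, Matrix.of_apply]
    rw [← mul_assoc, mul_inv_cancel₀ hv, one_mul]
  simp only [quad_eq]
  rw [integral_const_mul, integral_add (hint _ (by fun_prop)) (hint _ (by fun_prop)),
    integral_finsetSum _ fun k _ => hint _ (by fun_prop)]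
  simp only [sq, Finset.sum_mul_sum]
  rw [integral_finsetSum _ fun k _ => hint _ (by fun_prop)]
  simp only [fun k => integral_finsetSum (μ := volume.restrict D) Finset.univ
    (f := fun l x => (x k - ctr (m + 2) k) * (x l - ctr (m + 2) l))
    fun l _ => hint _ (by fun_prop)]
  simp only [hc]
  simp only [hD, Orlicz.cov_simplex, Finset.sum_sub_distrib, mul_sub, mul_ite, mul_zero,
    Finset.sum_ite_eq, Finset.mem_univ, if_true, Finset.sum_const, Finset.card_univ,
    Fintype.card_fin, nsmul_eq_mul]
  push_cast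
  field_simp
  ring

/-- A positive gain puts the isotropic constant below that of the simplex. -/
theorem lt_of_gain (hn : 2 ≤ n) {K : Set (Fin n → ℝ)} (hc : IsCompact K) (hV : 0 < volume.real K)
    (h : 0 < (∫ x in cornerSimplex n, (quad x - ((n : ℝ) + 2))) -
      ∫ x in K, (quad x - ((n : ℝ) + 2))) :
    isoConst K < isoConst (cornerSimplex n) := by
  obtain ⟨m, rfl⟩ : ∃ m, n = m + 2 := ⟨n - 2, by omega⟩
  have hV0 : 0 < volume.real (cornerSimplex (m + 2)) := by rw [volume_simplex]; positivity
  have hdet := det_cov_le hc hV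
  have hD := Orlicz.det_simplex m
  rw [integral_sub (continuous_quad.continuousOn.integrableOn_compact isCompact_simplex)
      ((continuous_const (y := _)).continuousOn.integrableOn_compact isCompact_simplex),
    integral_sub (continuous_quad.continuousOn.integrableOn_compact hc)
      ((continuous_const (y := _)).continuousOn.integrableOn_compact hc),
    integral_quad_simplex, setIntegral_const, setIntegral_const, smul_eq_mul, smul_eq_mul] at h
  push_cast at h hdet
  set v := volume.real K with hv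
  set V := volume.real (cornerSimplex (m + 2)) with hV'
  set I := ∫ x in K, quad x with hI
  have hexp : Real.exp (v⁻¹ * I - ((m : ℝ) + 2)) < v ^ 2 / V ^ 2 := by
    have h1 : v⁻¹ * I - ((m : ℝ) + 2) < 2 * (1 - V / v) := by
      field_simp
      linarith
    have h2 : 1 - V / v ≤ Real.log (v / V) := by
      have := Real.one_sub_inv_le_log_of_pos (div_pos hV hV0)
      rwa [inv_div] at this
    calc Real.exp (v⁻¹ * I - ((m : ℝ) + 2)) < Real.exp (2 * Real.log (v / V)) :=
          Real.exp_lt_exp.2 (by linarith)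
      _ = _ := by
        rw [show (2 : ℝ) * Real.log (v / V) = Real.log (v / V) + Real.log (v / V) from two_mul _,
          Real.exp_add, Real.exp_log (div_pos hV hV0)]
        ring
  rw [isoConst, isoConst]
  refine Real.rpow_lt_rpow (div_nonneg (Refl.cov_posSemidef hc).det_nonneg (sq_nonneg _)) ?_
    (by positivity)
  set c : ℝ := (((m : ℝ) + 2 + 1) * ((m : ℝ) + 2 + 2)) ^ (m + 2) * ((m : ℝ) + 2 + 1) with hc'
  have hc0 : 0 < c := by positivity
  have hDc : (cov (cornerSimplex (m + 2))).det * c = 1 := by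
    rw [hD, hc', div_pow, one_pow, show (m : ℝ) + 2 + 1 = (m : ℝ) + 3 by ring,
      show (m : ℝ) + 2 + 2 = (m : ℝ) + 4 by ring]
    field_simp
  rw [← hv, ← hV', div_lt_div_iff₀ (by positivity) (by positivity)]
  refine lt_of_mul_lt_mul_right ?_ hc0.le
  calc (cov K).det * V ^ 2 * c = (cov K).det * c * V ^ 2 := by ring
    _ ≤ Real.exp (v⁻¹ * I - ((m : ℝ) + 2)) * V ^ 2 :=
        mul_le_mul_of_nonneg_right hdet (sq_nonneg _)
    _ < v ^ 2 / V ^ 2 * V ^ 2 := mul_lt_mul_of_pos_right hexp (by positivity)
    _ = v ^ 2 * ((cov (cornerSimplex (m + 2))).det * c) := by rw [hDc]; field_simp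
    _ = _ := by ring

end Vale.Agent.P254.Local
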