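import Vale.Agent.P254.Local.Quant
import Vale.Agent.P254.Local.Trace

/-!
A body squeezed against all facets of the simplex near their centres gains.
-/

open MeasureTheory Set Filter
open scoped Nat Topology

namespace Vale.Agent.P254.Local

variable {n : ℕ}

/-- `quad` in a chart. -/
def qz (z : Fin n → ℝ) : ℝ := ((n : ℝ) + 2) * (((n : ℝ) + 1) * ∑ k, z k ^ 2 - sm z ^ 2)

@[fun_prop]
lemma continuous_qz : Continuous (qz (n := n)) := by unfold qz; fun_prop

lemma quad_chart (i : Fin (n + 1)) (z : Fin n → ℝ) : quad (chart i z) = qz z := by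
  rw [quad, qz, sum_sq_chart]
  field_simp
  ring

lemma qz_nonneg (z : Fin n → ℝ) : 0 ≤ qz z := by
  have h := sq_sum_le_card_mul_sum_sq (s := (Finset.univ : Finset (Fin n))) (f := z)
  simp only [Finset.card_univ, Fintype.card_fin] at h
  have : 0 ≤ ∑ k, z k ^ 2 := Finset.sum_nonneg fun k _ => sq_nonneg _
  refine mul_nonneg (by positivity) (sub_nonneg.2 ?_)
  show (∑ k, z k) ^ 2 ≤ _
  linarith

lemma qz_le {z : Fin n → ℝ} (hz : z ∈ orth n) :
    qz z ≤ ((n : ℝ) + 2) * ((n : ℝ) + 1) * sm z ^ 2 := by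
  rw [qz, mul_assoc]
  refine mul_le_mul_of_nonneg_left ?_ (by positivity)
  have := mul_le_mul_of_nonneg_left (sum_sq_le hz) (show (0 : ℝ) ≤ (n : ℝ) + 1 by positivity)
  linarith [sq_nonneg (sm z)]

lemma qz_le' {z : Fin n → ℝ} (hz : z ∈ orth n) :
    qz z ≤ ((n : ℝ) + 2) * ((n : ℝ) + 1) * (1 + sm z) ^ 2 :=
  (qz_le hz).trans (mul_le_mul_of_nonneg_left
    (pow_le_pow_left₀ (sm_nonneg hz) (by linarith) 2) (by positivity))

lemma qz_smul (r : ℝ) (z : Fin n → ℝ) : qz (r • z) = r ^ 2 * qz z := by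
  simp only [qz, sm_smul, Pi.smul_apply, smul_eq_mul, mul_pow, ← Finset.mul_sum]
  ring

lemma integrable_exp_qz {G : (Fin n → ℝ) → ℝ} (hG : Continuous G)
    (hGS : ∀ z ∈ orth n, sm z ≤ G z) (a : ℝ) :
    IntegrableOn (fun z => (qz z - a) * Real.exp (-G z)) (orth n) := by
  refine (integrableOn_weight (f := fun z => qz z + |a|) (by fun_prop)
    (((n : ℝ) + 2) * ((n : ℝ) + 1) + |a|) 2 fun z hz => ?_).mono'
      ((continuous_qz.sub continuous_const).mul (by fun_prop)).aestronglyMeasurable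
      ((ae_restrict_iff' measurableSet_orth).2 (ae_of_all _ fun z hz => ?_))
  · rw [abs_of_nonneg (add_nonneg (qz_nonneg z) (abs_nonneg a)), add_mul]
    exact add_le_add (qz_le' hz) (le_mul_of_one_le_right (abs_nonneg a)
      (one_le_pow₀ (by linarith [sm_nonneg hz])))
  · rw [Real.norm_eq_abs, abs_mul, abs_of_pos (Real.exp_pos _)]
    refine mul_le_mul ((abs_sub _ _).trans ?_) (Real.exp_le_exp.2 (by linarith [hGS z hz]))
      (Real.exp_pos _).le (add_nonneg (qz_nonneg z) (abs_nonneg a))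
    rw [abs_of_nonneg (qz_nonneg z)]

lemma layer_eq {G : (Fin n → ℝ) → ℝ} (hG : Continuous G) (hGS : ∀ z ∈ orth n, sm z ≤ G z)
    (hGhom : ∀ r : ℝ, 0 < r → ∀ z, G (r • z) = r * G z) :
    (n + 2)! * ∫ z in orth n ∩ {z | G z ≤ 1}, (qz z - ((n : ℝ) + 2)) =
      ∫ z in orth n, (qz z - ((n : ℝ) + 2) ^ 2 * ((n : ℝ) + 1)) * Real.exp (-G z) := by
  have hB : IsCompact (orth n ∩ {z | G z ≤ 1}) := by
    refine Metric.isCompact_of_isClosed_isBounded
      (isClosed_orth.inter (isClosed_le hG continuous_const))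
      ((isCompact_Icc (a := (0 : Fin n → ℝ)) (b := fun _ => 1)).isBounded.subset ?_)
    rintro z ⟨hz, hz1⟩
    exact ⟨fun i => hz i, fun i => ((Finset.single_le_sum (f := fun i => z i) (fun i _ => hz i)
      (Finset.mem_univ i)).trans (hGS z hz)).trans hz1⟩
  have h1 := integral_layer (k := 2) continuous_qz hG (fun z _ => qz_nonneg z) hGS _ 2
    (fun z hz => qz_le' hz) (fun r _ z _ => qz_smul r z) hGhom
  have h0 := integral_layer (f := fun _ => (1 : ℝ)) (k := 0) continuous_const hG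
    (fun _ _ => zero_le_one) hGS 1 0 (fun _ _ => by simp) (fun r _ z _ => by simp) hGhom
  have i1 : IntegrableOn (fun z => qz z * Real.exp (-G z)) (orth n) := by
    simpa using integrable_exp_qz hG hGS 0
  have i0 : IntegrableOn (fun z => Real.exp (-G z)) (orth n) := by
    have h := (integrable_exp_qz hG hGS 0).sub (integrable_exp_qz hG hGS 1)
    refine Integrable.congr h (ae_of_all _ fun z => ?_)
    simp only [Pi.sub_apply]; ring
  simp only [one_mul, add_zero] at h0
  rw [integral_sub (continuous_qz.continuousOn.integrableOn_compact hB)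
    (continuous_const.continuousOn.integrableOn_compact hB)]
  simp only [sub_mul]
  rw [integral_sub i1 (i0.const_mul _), integral_const_mul, h1, h0, setIntegral_const,
    setIntegral_const, smul_eq_mul, smul_eq_mul]
  push_cast [Nat.factorial_succ]
  ring

/-- The gain in one chart. -/
lemma chart_gain (hn : 2 ≤ n) {G : (Fin n → ℝ) → ℝ} {η : ℝ}
    (hd : Defect fun z => G z - sm z) (hG : Continuous G)
    (hGhom : ∀ r : ℝ, 0 < r → ∀ z, G (r • z) = r * G z)
    (hη : ∀ z ∈ orth n, G z - sm z ≤ 2 * η * sm z) :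
    ((n : ℝ) + 2) * ((n : ℝ) + 1) *
          (sqMass (fun z => G z - sm z) - 2 * ((n : ℝ) + 2) * mass fun z => G z - sm z) -
        η * ((((n : ℝ) + 2) * ((n : ℝ) + 1)) ^ 2 * ((n : ℝ) + 3)) * (mass fun z => G z - sm z) ≤
      (n + 2)! * ((∫ z in orth n ∩ {z | sm z ≤ 1}, (qz z - ((n : ℝ) + 2))) -
        ∫ z in orth n ∩ {z | G z ≤ 1}, (qz z - ((n : ℝ) + 2))) := by
  set δ := fun z => G z - sm z with hδ
  set p : ℝ := ((n : ℝ) + 2) * ((n : ℝ) + 1) with hp
  set c : ℝ := ((n : ℝ) + 2) ^ 2 * ((n : ℝ) + 1) with hc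
  have hGS : ∀ z ∈ orth n, sm z ≤ G z := fun z hz => sub_nonneg.1 (hd.nonneg z hz)
  rw [mul_sub ((n + 2)! : ℝ), layer_eq hG hGS hGhom,
    layer_eq continuous_sm (fun z _ => le_refl _) fun r _ z => sm_smul r z,
    ← integral_sub (integrable_exp_qz continuous_sm (fun z _ => le_refl _) _)
      (integrable_exp_qz hG hGS _)]
  have b2 : ∀ z ∈ orth n, |sm z ^ 2| ≤ 1 * (1 + sm z) ^ 2 := fun z hz => by
    rw [abs_of_nonneg (sq_nonneg _), one_mul]
    exact pow_le_pow_left₀ (sm_nonneg hz) (by linarith) 2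
  have j2 := hd.integrable (g := fun z => ∑ k, z k ^ 2) (by fun_prop) 1 2 fun z hz => by
    rw [abs_of_nonneg (Finset.sum_nonneg fun i _ => sq_nonneg _)]
    exact ((sum_sq_le hz).trans (le_abs_self _)).trans (b2 z hz)
  have s2 := hd.integrable (g := fun z => sm z ^ 2) (by fun_prop) 1 2 b2
  have s3 := hd.integrable (g := fun z => sm z ^ 3) (by fun_prop) 1 3 fun z hz => by
    rw [abs_of_nonneg (pow_nonneg (sm_nonneg hz) 3), one_mul]
    exact pow_le_pow_left₀ (sm_nonneg hz) (by linarith) 3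
  have s0 : IntegrableOn (fun z => δ z * Real.exp (-sm z)) (orth n) := by
    simpa using hd.integrable (g := fun _ => (1 : ℝ)) continuous_const 1 0 (by simp)
  obtain ⟨-, m2⟩ := hd.moments (by omega)
  have m3 : ∫ z in orth n, δ z * sm z ^ 3 * Real.exp (-sm z) =
      ((n : ℝ) + 3) * p * mass δ := by
    have h := integral_mul_sm (f := fun z => δ z * sm z ^ 2) (k := 3) (by omega)
      (hd.cont.mul (continuous_sm.pow 2))
      (fun z hz => mul_nonneg (hd.nonneg z hz) (sq_nonneg _)) 1 3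
      (fun z hz => by
        have hs := sm_nonneg hz
        calc δ z * sm z ^ 2 ≤ (1 + sm z) * (1 + sm z) ^ 2 :=
              mul_le_mul ((hd.le_sm z hz).trans (by linarith))
                (pow_le_pow_left₀ hs (by linarith) 2) (sq_nonneg _) (by linarith)
          _ = _ := by ring)
      fun r hr z hz => by rw [hd.hom r hr z hz, sm_smul]; ring
    push_cast at h
    rw [m2] at h
    rw [show (fun z => δ z * sm z ^ 3 * Real.exp (-sm z)) =
      fun z => δ z * sm z ^ 2 * sm z * Real.exp (-sm z) from funext fun z => by ring, h]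
    ring
  set L : (Fin n → ℝ) → ℝ := fun z => p * (δ z * (∑ k, z k ^ 2) * Real.exp (-sm z)) -
    ((n : ℝ) + 2) * (δ z * sm z ^ 2 * Real.exp (-sm z)) -
    η * p * (δ z * sm z ^ 3 * Real.exp (-sm z)) - c * (δ z * Real.exp (-sm z)) with hL
  have iA : IntegrableOn (fun z => p * (δ z * (∑ k, z k ^ 2) * Real.exp (-sm z)) -
      ((n : ℝ) + 2) * (δ z * sm z ^ 2 * Real.exp (-sm z))) (orth n) :=
    (j2.const_mul _).sub (s2.const_mul _)
  have iB : IntegrableOn (fun z => p * (δ z * (∑ k, z k ^ 2) * Real.exp (-sm z)) -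
      ((n : ℝ) + 2) * (δ z * sm z ^ 2 * Real.exp (-sm z)) -
      η * p * (δ z * sm z ^ 3 * Real.exp (-sm z))) (orth n) :=
    iA.sub (s3.const_mul _)
  have iL : IntegrableOn L (orth n) := iB.sub (s0.const_mul _)
  have eL : ∫ z in orth n, L z = p * (sqMass δ - 2 * ((n : ℝ) + 2) * mass δ) -
      η * (p ^ 2 * ((n : ℝ) + 3)) * mass δ := by
    rw [hL, integral_sub iB (s0.const_mul _), integral_sub iA (s3.const_mul _),
      integral_sub (j2.const_mul _) (s2.const_mul _), integral_const_mul, integral_const_mul,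
      integral_const_mul, integral_const_mul, m2, m3, sqMass, mass]
    simp only [hp, hc]
    ring
  refine eL.symm.le.trans (setIntegral_mono_on iL
    ((integrable_exp_qz continuous_sm (fun z _ => le_refl _) _).sub (integrable_exp_qz hG hGS _))
    measurableSet_orth fun z hz => ?_)
  simp only [hL]
  have hd0 := hd.nonneg z hz
  have hs := sm_nonneg hz
  set d := δ z with hdz
  have he : Real.exp (-G z) = Real.exp (-d) * Real.exp (-sm z) := by
    rw [← Real.exp_add]; congr 1; simp only [hdz, hδ]; ring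
  have u1 : 1 - Real.exp (-d) ≤ d := by linarith [Real.add_one_le_exp (-d)]
  have u2 : d - d ^ 2 / 2 ≤ 1 - Real.exp (-d) := by
    have q := Real.quadratic_le_exp_of_nonneg hd0
    have e1 : Real.exp (-d) * Real.exp d = 1 := by rw [← Real.exp_add]; simp
    have p4 : 0 ≤ d ^ 4 := by positivity
    nlinarith [mul_le_mul_of_nonneg_left q (Real.exp_pos (-d)).le, Real.exp_pos (-d),
      mul_nonneg (Real.exp_pos (-d)).le p4]
  have hQ := qz_nonneg z
  have hQ' := qz_le hz
  have u3 : d ^ 2 / 2 ≤ η * sm z * d := by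
    have := mul_le_mul_of_nonneg_left (hη z hz) hd0
    rw [show G z - sm z = d from rfl] at this
    linarith
  have u4 : qz z * (η * sm z * d) ≤ p * sm z ^ 2 * (η * sm z * d) :=
    mul_le_mul_of_nonneg_right hQ' ((by positivity : (0:ℝ) ≤ d ^ 2 / 2).trans u3)
  have u5 : qz z * (d - d ^ 2 / 2) ≤ qz z * (1 - Real.exp (-d)) :=
    mul_le_mul_of_nonneg_left u2 hQ
  have u6 : c * (1 - Real.exp (-d)) ≤ c * d :=
    mul_le_mul_of_nonneg_left u1 (by positivity)
  have u7 := mul_le_mul_of_nonneg_left u3 hQ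
  rw [he]
  have key : p * (d * ∑ k, z k ^ 2) - ((n : ℝ) + 2) * (d * sm z ^ 2) - η * p * (d * sm z ^ 3) -
      c * d ≤ (qz z - c) * (1 - Real.exp (-d)) := by
    have eq : qz z * d = p * (d * ∑ k, z k ^ 2) - ((n : ℝ) + 2) * (d * sm z ^ 2) := by
      rw [qz, hp]; ring
    linarith
  have := mul_le_mul_of_nonneg_right key (Real.exp_pos (-sm z)).le
  linarith

lemma mass_pos {δ : (Fin n → ℝ) → ℝ} (h : Defect δ) {z : Fin n → ℝ} (hz : z ∈ orth n)
    (hp : 0 < δ z) : 0 < mass δ := by
  have i0 : IntegrableOn (fun z => δ z * Real.exp (-sm z)) (orth n) := by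
    simpa using h.integrable (g := fun _ => (1 : ℝ)) continuous_const 1 0 (by simp)
  set U := {y | 0 < δ y} ∩ ⋂ k, {y : Fin n → ℝ | 0 < y k} with hU
  have hUo : IsOpen U := (isOpen_lt continuous_const h.cont).inter
    (isOpen_iInter_of_finite fun k => isOpen_lt continuous_const (continuous_apply k))
  have hUne : U.Nonempty := by
    have hc : Continuous fun t : ℝ => δ (z + t • one n) := h.cont.comp (by fun_prop)
    have hev : ∀ᶠ t in 𝓝[>] (0 : ℝ), 0 < δ (z + t • one n) := by
      refine nhdsWithin_le_nhds ((hc.tendsto 0).eventually_const_lt ?_)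
      simpa using hp
    obtain ⟨t, ht, ht0⟩ := (hev.and eventually_mem_nhdsWithin).exists
    refine ⟨z + t • one n, ht, mem_iInter.2 fun k => ?_⟩
    show 0 < z k + t * 1
    linarith [hz k, mem_Ioi.1 ht0]
  have hsub : U ⊆ Function.support (fun z => δ z * Real.exp (-sm z)) ∩ orth n := fun y hy =>
    ⟨(mul_pos hy.1 (Real.exp_pos _)).ne', fun k => (mem_iInter.1 hy.2 k).le⟩
  rw [mass, setIntegral_pos_iff_support_of_nonneg_ae
    ((ae_restrict_iff' measurableSet_orth).2 (ae_of_all _ fun y hy =>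
      mul_nonneg (h.nonneg y hy) (Real.exp_pos _).le)) i0]
  exact (hUo.measure_pos volume hUne).trans_le (measure_mono hsub)

/-- Inside the simplex, outside a shrunk copy, and reaching every facet near its centre. -/
structure Near (η : ℝ) (K : Set (Fin n → ℝ)) : Prop where
  conv : Convex ℝ K
  comp : IsCompact K
  sub : K ⊆ cornerSimplex n
  inner : (fun x => ctr n + (1 - η) • (x - ctr n)) '' cornerSimplex n ⊆ K
  touch : ∀ i, ∃ x ∈ K, bc x i = 0 ∧ ∀ j, j ≠ i → |bc x j - 1 / (n : ℝ)| ≤ η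

lemma Near.mem_nhds_ctr {η : ℝ} {K : Set (Fin n → ℝ)} (h : Near η K) (hη : η < 1) :
    K ∈ 𝓝 (ctr n) := by
  set U := {x : Fin n → ℝ | ∀ j, η / ((n : ℝ) + 1) < bc x j} with hU
  have hUo : IsOpen U := by
    simp only [hU, Set.ofPred_forall]
    exact isOpen_iInter_of_finite fun j => isOpen_lt continuous_const (by fun_prop)
  refine Filter.mem_of_superset (hUo.mem_nhds fun j => ?_) fun x hx => h.inner ?_
  · rw [bc_ctr]; gcongr
  · have h1 : 0 < 1 - η := by linarith
    refine ⟨ctr n + (1 - η)⁻¹ • (x - ctr n), mem_simplex_iff.2 fun j => ?_, ?_⟩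
    · rw [bc_scale]
      have e : (1 - (1 - η)⁻¹) / ((n : ℝ) + 1) + (1 - η)⁻¹ * bc x j =
          (1 - η)⁻¹ * (bc x j - η / ((n : ℝ) + 1)) := by field_simp; ring
      rw [e]
      exact mul_nonneg (inv_nonneg.2 h1.le) (sub_nonneg.2 (hx j).le)
    · simp only [add_sub_cancel_left, smul_smul, mul_inv_cancel₀ h1.ne', one_smul]
      abel

/-- The gain is positive near the simplex. -/
theorem gain_pos (hn : 2 ≤ n) : ∃ η : ℝ, 0 < η ∧ η < 1 ∧ ∀ K : Set (Fin n → ℝ), Near η K →
    K ≠ cornerSimplex n →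
      0 < (∫ x in cornerSimplex n, (quad x - ((n : ℝ) + 2))) -
        ∫ x in K, (quad x - ((n : ℝ) + 2)) := by
  obtain ⟨c, σ, hc, hσ, hgap⟩ := gap_lower hn
  obtain ⟨η₀, hη₀, hcen⟩ := center_small (n := n) hσ
  set C : ℝ := (((n : ℝ) + 2) * ((n : ℝ) + 1)) ^ 2 * ((n : ℝ) + 3) with hC
  have hC0 : 0 < C := by positivity
  have hn0 : (0 : ℝ) < n := by exact_mod_cast (show 0 < n by omega)
  set η := min (1 / 4) (min (η₀ / n) (((n : ℝ) + 2) * ((n : ℝ) + 1) * c / (2 * C))) with hη
  have h0 : 0 < η := lt_min (by norm_num) (lt_min (by positivity) (by positivity))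
  have h4 : η ≤ 1 / 4 := min_le_left _ _
  have hA : (n : ℝ) * η ≤ η₀ := by
    rw [← le_div_iff₀' hn0]; exact (min_le_right _ _).trans (min_le_left _ _)
  have hB : η * C ≤ ((n : ℝ) + 2) * ((n : ℝ) + 1) * c / 2 := by
    have : η ≤ ((n : ℝ) + 2) * ((n : ℝ) + 1) * c / (2 * C) :=
      (min_le_right _ _).trans (min_le_right _ _)
    rw [le_div_iff₀ (by positivity)] at this
    linarith
  refine ⟨η, h0, by linarith, fun K hK hne => ?_⟩
  set K₀ := (fun v => ctr n + v) ⁻¹' K with hK₀
  have hK₀c : Convex ℝ K₀ := hK.conv.translate_preimage_right _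
  have hK₀cl : IsClosed K₀ := hK.comp.isClosed.preimage (by fun_prop)
  have hnhds : K₀ ∈ 𝓝 (0 : Fin n → ℝ) := by
    refine (continuous_const_add (ctr n)).continuousAt.preimage_mem_nhds ?_
    simpa using hK.mem_nhds_ctr (by linarith)
  choose L hL using chart_affine (n := n)
  set G : Fin (n + 1) → (Fin n → ℝ) → ℝ := fun i z => gauge K₀ (L i z) with hG
  have hGc : ∀ i, Continuous (G i) := fun i =>
    (continuous_gauge hK₀c hnhds).comp (L i).continuous_of_finiteDimensional
  have hGhom : ∀ i, ∀ r : ℝ, 0 < r → ∀ z, G i (r • z) = r * G i z := fun i r hr z => by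
    simp only [hG, map_smul, gauge_smul_of_nonneg hr.le, smul_eq_mul]
  have hG1 : ∀ i z, G i z ≤ 1 ↔ chart i z ∈ K := fun i z => by
    rw [gauge_le_one_iff_mem_closure hK₀c hnhds, hK₀cl.closure_eq, hL i z]; rfl
  have hGS : ∀ i, ∀ z ∈ orth n, sm z ≤ G i z := fun i z hz => by
    by_contra hlt
    push Not at hlt
    have hG0 : 0 ≤ G i z := gauge_nonneg _
    obtain ⟨t, t1, t2⟩ := exists_between hlt
    have ht : 0 < t := by linarith
    have hin : chart i (t⁻¹ • z) ∈ K := (hG1 i _).1 (by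
      rw [hGhom i _ (inv_pos.2 ht), inv_mul_le_iff₀ ht]; linarith)
    have := (chart_mem_simplex_iff (smul_mem_orth hz (inv_pos.2 ht).le)).1 (hK.sub hin)
    rw [sm_smul, inv_mul_le_iff₀ ht] at this
    linarith
  have hSG : ∀ i, ∀ z ∈ orth n, (1 - η) * G i z ≤ sm z := fun i z hz => by
    refine le_of_forall_gt_imp_ge_of_dense fun t ht => ?_
    have ht0 : 0 < t := (sm_nonneg hz).trans_lt ht
    have h1 : 0 < 1 - η := by linarith
    have hin : chart i (((1 - η) / t) • z) ∈ K := by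
      refine hK.inner ⟨chart i (t⁻¹ • z),
        (chart_mem_simplex_iff (smul_mem_orth hz (inv_pos.2 ht0).le)).2 ?_, ?_⟩
      · rw [sm_smul, inv_mul_le_iff₀ ht0]; linarith
      · simp only [hL, add_sub_cancel_left, ← map_smul, smul_smul, div_eq_mul_inv]
    have := (hG1 i _).2 hin
    rw [hGhom i _ (div_pos h1 ht0), div_mul_eq_mul_div, div_le_one ht0] at this
    exact this
  have hδle : ∀ i, ∀ z ∈ orth n, G i z - sm z ≤ 2 * η * sm z := fun i z hz => by
    have hs := sm_nonneg hz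
    have hG0 : 0 ≤ G i z := gauge_nonneg _
    have := hSG i z hz
    nlinarith [hGS i z hz]
  have hD : ∀ i, Defect fun z => G i z - sm z := fun i =>
    { cont := (hGc i).sub continuous_sm
      convex := ⟨convex_orth, fun x _ y _ a b ha hb _ => by
        have := gauge_add_le hK₀c (absorbent_nhds_zero hnhds) (a • L i x) (b • L i y)
        rw [gauge_smul_of_nonneg ha, gauge_smul_of_nonneg hb] at this
        simp only [hG, smul_eq_mul, map_add, map_smul, sm_add, sm_smul] at this ⊢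
        linarith⟩
      nonneg := fun z hz => sub_nonneg.2 (hGS i z hz)
      le_sm := fun z hz => (hδle i z hz).trans (by nlinarith [sm_nonneg hz])
      hom := fun r hr z _ => by simp only [hGhom i r hr z, sm_smul]; ring }
  have hcent : ∀ i, (G i (one n) - sm (one n)) ≤ σ * mass fun z => G i z - sm z := fun i => by
    obtain ⟨x, hxK, hxi, hxj⟩ := hK.touch i
    have hmin : x ∈ cone i := fun j => by
      rw [hxi]; exact mem_simplex_iff.1 (hK.sub hxK) j
    obtain ⟨z, hz, rfl⟩ := exists_chart_eq hmin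
    rw [bc_chart_self, div_eq_zero_iff] at hxi
    have hs1 : sm z = 1 := by
      rcases hxi with h | h
      · linarith
      · exact absurd h (by positivity)
    have hGz : G i z = 1 := le_antisymm ((hG1 i z).2 hxK) (hs1 ▸ hGS i z hz)
    refine hcen _ (hD i) ((n : ℝ) • z) (fun k => ?_) ?_
    · have hk := hxj (Equiv.swap 0 i k.succ) (by
        intro h
        have := congrArg (Equiv.swap 0 i) h
        rw [Equiv.swap_apply_self, Equiv.swap_apply_right] at this
        exact Fin.succ_ne_zero k this)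
      rw [bc_chart, hs1, sub_self, zero_div, add_zero] at hk
      simp only [Pi.smul_apply, smul_eq_mul]
      rw [show (n : ℝ) * z k - 1 = (n : ℝ) * (z k - 1 / n) by field_simp, abs_mul,
        abs_of_pos hn0]
      exact (mul_le_mul_of_nonneg_left hk hn0.le).trans hA
    · show G i ((n : ℝ) • z) - sm ((n : ℝ) • z) = 0
      rw [hGhom i _ hn0, sm_smul, hGz, hs1, sub_self]
  set J : Fin (n + 1) → ℝ := fun i => mass fun z => G i z - sm z with hJ
  set E : Fin (n + 1) → ℝ := fun i => (∫ z in orth n ∩ {z | sm z ≤ 1}, (qz z - ((n : ℝ) + 2))) -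
    ∫ z in orth n ∩ {z | G i z ≤ 1}, (qz z - ((n : ℝ) + 2)) with hE
  have hEge : ∀ i, ((n : ℝ) + 2) * ((n : ℝ) + 1) * c / 2 * J i ≤ (n + 2)! * E i := fun i => by
    refine le_trans ?_ (chart_gain hn (hD i) (hGc i) (hGhom i) (hδle i))
    have g := mul_le_mul_of_nonneg_left (hgap _ (hD i) (hcent i))
      (show (0 : ℝ) ≤ ((n : ℝ) + 2) * ((n : ℝ) + 1) by positivity)
    have g' := mul_le_mul_of_nonneg_right hB (hD i).mass_nonneg
    simp only [hJ]
    linarith
  obtain ⟨x, hxΔ, hxK⟩ := Set.not_subset.1 fun h => hne (hK.sub.antisymm h)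
  obtain ⟨i₀, hi₀⟩ := exists_mem_cone x
  obtain ⟨z, hz, rfl⟩ := exists_chart_eq hi₀
  have hJpos : 0 < J i₀ := mass_pos (hD i₀) hz (by
    have h1 := (chart_mem_simplex_iff hz).1 hxΔ
    have h2 : 1 < G i₀ z := not_le.1 (mt (hG1 i₀ z).1 hxK)
    linarith)
  have hsum : (0 : ℝ) < ∑ i, E i := by
    have hk : 0 < ((n : ℝ) + 2) * ((n : ℝ) + 1) * c / 2 := by positivity
    have hf : (0 : ℝ) < (n + 2)! := by positivity
    refine Finset.sum_pos' (fun i _ => ?_) ⟨i₀, Finset.mem_univ _, ?_⟩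
    · exact nonneg_of_mul_nonneg_right
        ((mul_nonneg hk.le (hD i).mass_nonneg).trans (hEge i)) hf
    · exact pos_of_mul_pos_right ((mul_pos hk hJpos).trans_le (hEge i₀)) hf.le
  have hq : Continuous fun x : Fin n → ℝ => quad x - ((n : ℝ) + 2) := by fun_prop
  rw [integral_split isCompact_simplex hq (fun _ => {z | sm z ≤ 1})
      fun i z hz => (chart_mem_simplex_iff hz).symm,
    integral_split hK.comp hq (fun i => {z | G i z ≤ 1}) fun i z _ => hG1 i z,
    ← Finset.sum_sub_distrib]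
  simp only [quad_chart, ← mul_sub, ← Finset.mul_sum]
  exact mul_pos (by positivity) hsum

end Vale.Agent.P254.Local
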