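import Vale.Agent.P254.Local.Normal

/-!
The simplex is a strict local maximizer of the isotropic constant.
-/

open MeasureTheory Set
open scoped Matrix Topology

namespace Vale.Agent.P254.Local

variable {n : ℕ}

lemma volume_image (M : Matrix (Fin n) (Fin n) ℝ) (hM : M.det ≠ 0) (b : Fin n → ℝ)
    (K : Set (Fin n → ℝ)) :
    volume.real ((fun x => M *ᵥ x + b) '' K) = |M.det| * volume.real K := by
  simpa using Three.integral_affine M hM b K fun _ => (1 : ℝ)

/-- Every convex body close to a simplex, and not a simplex, is strictly below the simplex. -/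
theorem local_max (hn : 2 ≤ n) : ∃ ε : ℝ, 0 < ε ∧ ∀ K : Set (Fin n → ℝ),
    Convex ℝ K → IsCompact K → ∀ M : Matrix (Fin n) (Fin n) ℝ, M.det ≠ 0 → ∀ b : Fin n → ℝ,
      (fun y => ctr n + (1 - ε) • (y - ctr n)) '' cornerSimplex n ⊆ (fun x => M *ᵥ x + b) '' K →
      (fun x => M *ᵥ x + b) '' K ⊆ (fun y => ctr n + (1 + ε) • (y - ctr n)) '' cornerSimplex n →
      (¬ ∃ (M' : Matrix (Fin n) (Fin n) ℝ) (b' : Fin n → ℝ), M'.det ≠ 0 ∧
        (fun x => M' *ᵥ x + b') '' K = cornerSimplex n) →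
      isoConst K < isoConst (cornerSimplex n) := by
  obtain ⟨η, hη0, hη1, hgain⟩ := gain_pos hn
  obtain ⟨ε, hε, hnear⟩ := exists_near (n := n) (by omega) hη0 hη1
  refine ⟨ε, hε, fun K hc hk M hM b hin hout hne => ?_⟩
  set K₁ := (fun x => M *ᵥ x + b) '' K with hK₁
  have hc₁ : Convex ℝ K₁ := by
    have := (hc.linear_image M.mulVecLin).translate b
    rw [Matrix.coe_mulVecLin, image_image] at this
    simpa [hK₁, add_comm] using this
  have hk₁ : IsCompact K₁ := hk.image (by fun_prop)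
  obtain ⟨A, a, hA, hN⟩ := hnear K₁ hc₁ hk₁ hin hout
  set K₂ := (fun x => A *ᵥ x + a) '' K₁ with hK₂
  have hV₂ : 0 < volume.real K₂ :=
    ENNReal.toReal_pos (Measure.measure_pos_of_mem_nhds volume (hN.mem_nhds_ctr hη1)).ne'
      hN.comp.measure_lt_top.ne
  have hV₁ : volume.real K₁ ≠ 0 := fun h => by
    rw [hK₂, volume_image A hA a K₁, h, mul_zero] at hV₂
    exact lt_irrefl 0 hV₂
  have hV : volume.real K ≠ 0 := fun h => by
    rw [hK₁, volume_image M hM b K, h, mul_zero] at hV₁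
    exact hV₁ rfl
  rw [← Three.isoConst_affine M hM b K hk hV, ← Three.isoConst_affine A hA a K₁ hk₁ hV₁]
  refine lt_of_gain hn hN.comp hV₂ (hgain K₂ hN fun h => hne ⟨A * M, A *ᵥ b + a, ?_, ?_⟩)
  · rw [Matrix.det_mul]; exact mul_ne_zero hA hM
  · rw [← h, hK₂, hK₁, image_image]
    exact image_congr fun x _ => by
      rw [Matrix.mulVec_add, Matrix.mulVec_mulVec, add_assoc]

end Vale.Agent.P254.Local
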