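import Vale.Agent.P254.Local.Gain

/-!
A body close to the simplex can be moved affinely inside it so that it reaches every facet near
that facet's centre.
-/

open MeasureTheory Set
open scoped Matrix Topology

namespace Vale.Agent.P254.Local

variable {n : ℕ}

lemma near_id_bound {N : ℕ} {A : Matrix (Fin N) (Fin N) ℝ} {β : ℝ}
    (hA : ∀ i j, |A i j - (if i = j then 1 else 0)| ≤ β) (μ : Fin N → ℝ) (j : Fin N) :
    |(A *ᵥ μ) j - μ j| ≤ β * ∑ k, |μ k| := by
  have e : (A *ᵥ μ) j - μ j = ∑ k, (A j k - if j = k then 1 else 0) * μ k := by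
    simp [Matrix.mulVec, dotProduct, sub_mul, Finset.sum_sub_distrib, ite_mul]
  rw [e]
  refine (Finset.abs_sum_le_sum_abs _ _).trans ?_
  rw [Finset.mul_sum]
  exact Finset.sum_le_sum fun k _ => by
    rw [abs_mul]; exact mul_le_mul_of_nonneg_right (hA j k) (abs_nonneg _)

lemma near_id_sum {N : ℕ} {A : Matrix (Fin N) (Fin N) ℝ} {β : ℝ}
    (hA : ∀ i j, |A i j - (if i = j then 1 else 0)| ≤ β) (hβ : (N : ℝ) * β ≤ 1 / 2)
    (μ : Fin N → ℝ) : ∑ k, |μ k| ≤ 2 * ∑ k, |(A *ᵥ μ) k| := by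
  have h : ∑ k, |μ k| ≤ ∑ k, (|(A *ᵥ μ) k| + β * ∑ l, |μ l|) :=
    Finset.sum_le_sum fun k _ => by
      have := abs_sub_abs_le_abs_sub (μ k) ((A *ᵥ μ) k)
      rw [abs_sub_comm (μ k)] at this
      linarith [near_id_bound hA μ k]
  rw [Finset.sum_add_distrib, Finset.sum_const, Finset.card_univ, Fintype.card_fin,
    nsmul_eq_mul] at h
  have h0 : 0 ≤ ∑ k, |μ k| := Finset.sum_nonneg fun k _ => abs_nonneg _
  have := mul_le_mul_of_nonneg_right hβ h0
  linarith

lemma near_id_injective {N : ℕ} {A : Matrix (Fin N) (Fin N) ℝ} {β : ℝ}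
    (hA : ∀ i j, |A i j - (if i = j then 1 else 0)| ≤ β) (hβ : (N : ℝ) * β ≤ 1 / 2) :
    Function.Injective A.mulVec := fun x y h => by
  have h1 := near_id_sum hA hβ (x - y)
  simp only [Matrix.mulVec_sub, h, sub_self, Pi.zero_apply, abs_zero, Finset.sum_const_zero,
    mul_zero] at h1
  funext k
  have := (Finset.sum_eq_zero_iff_of_nonneg fun k _ => abs_nonneg ((x - y) k)).1
    (le_antisymm h1 (Finset.sum_nonneg fun k _ => abs_nonneg _)) k (Finset.mem_univ k)
  simpa [sub_eq_zero] using this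

/-- A point of a copy of the simplex scaled about the centre. -/
lemma mem_scaled {s : ℝ} (hs : 0 < s) {x : Fin n → ℝ}
    (h : ∀ j, (1 - s) / ((n : ℝ) + 1) ≤ bc x j) :
    x ∈ (fun y => ctr n + s • (y - ctr n)) '' cornerSimplex n := by
  refine ⟨ctr n + s⁻¹ • (x - ctr n), mem_simplex_iff.2 fun j => ?_, ?_⟩
  · rw [bc_scale]
    have e : (1 - s⁻¹) / ((n : ℝ) + 1) + s⁻¹ * bc x j =
        s⁻¹ * (bc x j - (1 - s) / ((n : ℝ) + 1)) := by field_simp; ring
    rw [e]
    exact mul_nonneg (inv_nonneg.2 hs.le) (sub_nonneg.2 (h j))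
  · simp only [add_sub_cancel_left, smul_smul, mul_inv_cancel₀ hs.ne', one_smul]
    abel

lemma le_bc_scaled {s : ℝ} (hs : 0 ≤ s) {x : Fin n → ℝ}
    (h : x ∈ (fun y => ctr n + s • (y - ctr n)) '' cornerSimplex n) (j : Fin (n + 1)) :
    (1 - s) / ((n : ℝ) + 1) ≤ bc x j := by
  obtain ⟨y, hy, rfl⟩ := h
  rw [bc_scale]
  linarith [mul_nonneg hs (mem_simplex_iff.1 hy j)]

/-- An affine function vanishing on the body near a facet centre is near that facet's coordinate. -/
lemma weight_close (hn : 1 ≤ n) {ε t : ℝ} (hε : ε ≤ 1 / 2) (ht0 : 1 - ε ≤ t)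
    (ht1 : t ≤ 1 + ε) {i : Fin (n + 1)} {w : Fin (n + 1) → ℝ} (hw : ∑ j, w j = 1)
    (hv : ∀ k, 0 ≤ ε / ((n : ℝ) + 1) + (1 - ε) * w k)
    (hp : (1 - t) / ((n : ℝ) + 1) + t / n * (1 - w i) = 0) (k : Fin (n + 1)) :
    |w k - (if i = k then 1 else 0)| ≤ ((n : ℝ) + 2) * ε := by
  have hn1 : (1 : ℝ) ≤ n := by exact_mod_cast hn
  have hε0 : 0 ≤ ε := by linarith
  have hN : (0 : ℝ) < (n : ℝ) + 1 := by linarith
  have ht : 0 < t := by linarith
  have hlow : ∀ l, -ε ≤ w l := fun l => by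
    have h := hv l
    rw [div_add' _ _ _ hN.ne', le_div_iff₀ hN, zero_mul] at h
    by_contra hl
    push Not at hl
    have hneg : (1 - ε) * ((n : ℝ) + 1) * w l < (1 - ε) * ((n : ℝ) + 1) * (-ε) :=
      mul_lt_mul_of_pos_left hl (mul_pos (by linarith) hN)
    nlinarith [mul_nonneg hε0 (show (0 : ℝ) ≤ (1 - ε) * ((n : ℝ) + 1) - 1 by nlinarith)]
  have hwi : |1 - w i| ≤ 2 * ε := by
    have e : 1 - w i = (n : ℝ) * (t - 1) / (t * ((n : ℝ) + 1)) := by
      field_simp at hp ⊢
      linarith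
    rw [e, abs_div, abs_mul, abs_of_pos (mul_pos ht hN), abs_of_pos (by linarith : (0:ℝ) < n),
      div_le_iff₀ (mul_pos ht hN)]
    have h1 : |t - 1| ≤ ε := abs_le.2 ⟨by linarith, by linarith⟩
    refine (mul_le_mul_of_nonneg_left h1 (by linarith)).trans ?_
    nlinarith [mul_le_mul_of_nonneg_right (show (1:ℝ) / 2 ≤ t by linarith)
      (mul_nonneg hε0 hN.le)]
  obtain ⟨hwa, hwb⟩ := abs_le.1 hwi
  by_cases h : i = k
  · subst h
    rw [if_pos rfl, abs_sub_comm]
    exact hwi.trans (mul_le_mul_of_nonneg_right (by linarith) hε0)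
  · rw [if_neg h, sub_zero, abs_le]
    refine ⟨le_trans ?_ (hlow k), ?_⟩
    · nlinarith
    · have := Finset.sum_le_sum_of_subset_of_nonneg (f := fun l => w l + ε)
        (Finset.subset_univ ({i, k} : Finset (Fin (n + 1))))
        fun l _ _ => by linarith [hlow l]
      rw [Finset.sum_pair h, Finset.sum_add_distrib, hw, Finset.sum_const, Finset.card_univ,
        Fintype.card_fin, nsmul_eq_mul] at this
      push_cast at this
      linarith

/-- A supporting affine function at the ray through each facet centre. -/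
lemma exists_support (hn : 1 ≤ n) {ε : ℝ} (hε0 : 0 < ε) (hε : ε ≤ 1 / 2)
    {K : Set (Fin n → ℝ)} (hc : Convex ℝ K) (hk : IsCompact K)
    (hin : (fun y => ctr n + (1 - ε) • (y - ctr n)) '' cornerSimplex n ⊆ K)
    (hout : K ⊆ (fun y => ctr n + (1 + ε) • (y - ctr n)) '' cornerSimplex n) (i : Fin (n + 1)) :
    ∃ (w : Fin (n + 1) → ℝ) (p : Fin n → ℝ), p ∈ K ∧
      (∀ j, j ≠ i → |bc p j - 1 / (n : ℝ)| ≤ ε) ∧ ∑ j, bc p j * w j = 0 ∧
      (∀ x ∈ K, 0 ≤ ∑ j, bc x j * w j) ∧
      ∀ k, |w k - (if i = k then 1 else 0)| ≤ ((n : ℝ) + 2) * ε := by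
  have hn1 : (1 : ℝ) ≤ n := by exact_mod_cast hn
  have hN : (0 : ℝ) < (n : ℝ) + 1 := by linarith
  set ν : Fin (n + 1) → ℝ := fun j => if i = j then 0 else 1 / (n : ℝ) with hν
  have hνs : ∑ j, ν j = 1 := by
    simp only [hν, Finset.sum_ite, Finset.sum_const_zero, Finset.sum_const, zero_add, nsmul_eq_mul,
      Finset.filter_ne, Finset.card_erase_of_mem (Finset.mem_univ i), Finset.card_univ,
      Fintype.card_fin, Nat.add_sub_cancel]
    field_simp
  set r : ℝ → Fin n → ℝ := fun t => ctr n + t • (Fin.tail ν - ctr n) with hr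
  have hbr : ∀ t j, bc (r t) j = (1 - t) / ((n : ℝ) + 1) + t * ν j := fun t j => by
    rw [hr, bc_scale, bc_tail hνs]
  have hν0 : ∀ j, 0 ≤ ν j := fun j => by
    simp only [hν]; split_ifs <;> positivity
  -- the last point of the ray
  set I := {t : ℝ | r t ∈ K} ∩ Icc 0 2 with hI
  have hIc : IsCompact I :=
    isCompact_Icc.inter_left (hk.isClosed.preimage (by rw [hr]; fun_prop))
  have hrin : r (1 - ε) ∈ K := hin ⟨Fin.tail ν,
    mem_simplex_iff.2 fun j => by rw [bc_tail hνs]; exact hν0 j, rfl⟩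
  obtain ⟨t, ⟨htK, -, ht2⟩, htmax⟩ :=
    hIc.exists_isGreatest ⟨1 - ε, hrin, by linarith, by linarith⟩
  have ht0 : 1 - ε ≤ t := htmax ⟨hrin, by linarith, by linarith⟩
  have ht1 : t ≤ 1 + ε := by
    have := le_bc_scaled (by linarith) (hout htK) i
    rw [hbr, hν] at this
    simp only [if_true, mul_zero, add_zero] at this
    rw [div_le_div_iff_of_pos_right hN] at this
    linarith
  have hint : (interior K).Nonempty := by
    refine ⟨ctr n, mem_interior_iff_mem_nhds.2 ?_⟩
    set U := ⋂ j, {x : Fin n → ℝ | ε / ((n : ℝ) + 1) < bc x j}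
    have hUo : IsOpen U :=
      isOpen_iInter_of_finite fun j => isOpen_lt continuous_const (by fun_prop)
    refine Filter.mem_of_superset (hUo.mem_nhds (mem_iInter.2 fun j => ?_)) fun x hx =>
      hin (mem_scaled (by linarith) fun j => ?_)
    · show ε / ((n : ℝ) + 1) < _
      rw [bc_ctr]; gcongr; linarith
    · rw [sub_sub_cancel]; exact (mem_iInter.1 hx j).le
  have hpt : r t ∉ interior K := fun h => by
    have hev : ∀ᶠ u in 𝓝[>] t, r u ∈ K ∧ u < 2 := by
      refine nhdsWithin_le_nhds (Filter.Eventually.and ?_ (gt_mem_nhds (by linarith)))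
      exact (show Continuous r by rw [hr]; fun_prop).continuousAt.preimage_mem_nhds
        (mem_interior_iff_mem_nhds.1 h)
    obtain ⟨u, ⟨hu, hu2⟩, hut⟩ := (hev.and eventually_mem_nhdsWithin).exists
    have := htmax ⟨hu, by linarith [mem_Ioi.1 hut], hu2.le⟩
    linarith [mem_Ioi.1 hut]
  obtain ⟨f, hf⟩ := geometric_hahn_banach_open_point hc.interior isOpen_interior hpt
  set p := r t with hp
  have hfK : ∀ x ∈ K, f x ≤ f p := fun x hx => by
    have h1 : closure (interior K) ⊆ {y | f y ≤ f p} :=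
      closure_minimal (fun y hy => (hf y hy).le) (isClosed_le f.continuous continuous_const)
    exact h1 ((hc.closure_interior_eq_closure_of_nonempty_interior hint).symm ▸ subset_closure hx)
  obtain ⟨a, ha⟩ := hint
  set w' : Fin (n + 1) → ℝ := Fin.cons (f p) fun k => f p - f (Pi.single k 1) with hw'
  have hl : ∀ x : Fin n → ℝ, ∑ j, bc x j * w' j = f p - f x := fun x => by
    conv_rhs => rw [pi_eq_sum_univ' x, map_sum]
    simp only [hw', Fin.sum_univ_succ, bc_zero, bc_succ, Fin.cons_zero, Fin.cons_succ, map_smul,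
      smul_eq_mul, mul_sub, Finset.sum_sub_distrib, ← Finset.sum_mul]
    ring
  set lam := ∑ j, w' j with hlam
  have hctr : f p - f (ctr n) = lam / ((n : ℝ) + 1) := by
    rw [← hl]
    simp only [bc_ctr, hlam]
    rw [← Finset.mul_sum]
    ring
  have hpos : 0 < lam := by
    have hc0 : ctr n ∈ K :=
      hin ⟨ctr n, mem_simplex_iff.2 fun j => by rw [bc_ctr]; positivity, by simp⟩
    rcases (sub_nonneg.2 (hfK _ hc0)).eq_or_lt with h | h
    · exfalso
      have hci : ctr n ∈ interior K := by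
        set U := ⋂ j, {x : Fin n → ℝ | ε / ((n : ℝ) + 1) < bc x j}
        refine mem_interior.2 ⟨U, fun x hx => hin (mem_scaled (by linarith) fun j => ?_),
          isOpen_iInter_of_finite fun j => isOpen_lt continuous_const (by fun_prop),
          mem_iInter.2 fun j => ?_⟩
        · rw [sub_sub_cancel]; exact (mem_iInter.1 hx j).le
        · show ε / ((n : ℝ) + 1) < _
          rw [bc_ctr]; gcongr; linarith
      linarith [hf _ hci]
    · rw [hctr] at h
      exact (div_pos_iff_of_pos_right hN).1 h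
  set w := fun j => w' j / lam with hwd
  have hlw : ∀ x : Fin n → ℝ, ∑ j, bc x j * w j = (f p - f x) / lam := fun x => by
    simp only [hwd, mul_div_assoc', ← Finset.sum_div, hl]
  have hnon : ∀ x ∈ K, 0 ≤ ∑ j, bc x j * w j := fun x hx => by
    rw [hlw]; exact div_nonneg (sub_nonneg.2 (hfK x hx)) hpos.le
  have hws : ∑ j, w j = 1 := by simp only [hwd, ← Finset.sum_div, ← hlam, div_self hpos.ne']
  have hp0 : ∑ j, bc p j * w j = 0 := by rw [hlw, sub_self, zero_div]
  refine ⟨w, p, htK, fun j hj => ?_, hp0, hnon, weight_close hn hε ht0 ht1 hws (fun k => ?_) ?_⟩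
  · rw [hbr, hν]
    simp only [if_neg (Ne.symm hj)]
    rw [show (1 - t) / ((n : ℝ) + 1) + t * (1 / n) - 1 / n =
      (t - 1) * (1 / n - 1 / ((n : ℝ) + 1)) by ring, abs_mul]
    refine (mul_le_mul (abs_le.2 ⟨by linarith, by linarith⟩ : |t - 1| ≤ ε) ?_ (abs_nonneg _)
      hε0.le).trans (mul_one ε).le
    rw [abs_le]
    constructor
    · linarith [show (1:ℝ) / ((n : ℝ) + 1) ≤ 1 by rw [div_le_one hN]; linarith,
        show (0:ℝ) ≤ 1 / n by positivity]
    · linarith [show (1:ℝ) / n ≤ 1 by rw [div_le_one (by linarith)]; exact hn1,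
        show (0:ℝ) ≤ 1 / ((n : ℝ) + 1) by positivity]
  · have hs : ∑ j, (Pi.single k (1 : ℝ) : Fin (n + 1) → ℝ) j = 1 := by simp
    set u := ctr n + (1 - ε) • (Fin.tail (Pi.single k (1 : ℝ) : Fin (n + 1) → ℝ) - ctr n) with hu
    have hmem : u ∈ K := hin ⟨_, mem_simplex_iff.2 fun j => by
      rw [bc_tail hs, Pi.single_apply]; split_ifs <;> norm_num, rfl⟩
    have := hnon u hmem
    simp only [hu, bc_scale, bc_tail hs, sub_sub_cancel, add_mul, Finset.sum_add_distrib,
      ← Finset.mul_sum, hws, mul_one, Pi.single_apply, mul_ite, mul_zero, ite_mul, zero_mul,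
      Finset.sum_ite_eq', Finset.mem_univ, if_true] at this
    exact this
  · have h : ∑ j, bc (r t) j * w j = 0 := hp0
    have e : ∀ j, bc (r t) j * w j =
        ((1 - t) / ((n : ℝ) + 1) + t / n) * w j - if i = j then t / n * w j else 0 := fun j => by
      rw [hbr, hν]; dsimp only; split_ifs <;> ring
    simp only [e, Finset.sum_sub_distrib, ← Finset.mul_sum, hws, Finset.sum_ite_eq,
      Finset.mem_univ, if_true] at h
    linarith

/-- The normalised position. -/
theorem exists_near (hn : 1 ≤ n) {η : ℝ} (hη : 0 < η) (hη1 : η < 1) :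
    ∃ ε : ℝ, 0 < ε ∧ ∀ K : Set (Fin n → ℝ), Convex ℝ K → IsCompact K →
      (fun y => ctr n + (1 - ε) • (y - ctr n)) '' cornerSimplex n ⊆ K →
      K ⊆ (fun y => ctr n + (1 + ε) • (y - ctr n)) '' cornerSimplex n →
        ∃ (M : Matrix (Fin n) (Fin n) ℝ) (b : Fin n → ℝ), M.det ≠ 0 ∧
          Near η ((fun x => M *ᵥ x + b) '' K) := by
  have hN : (0 : ℝ) < (n : ℝ) + 1 := by positivity
  set D : ℝ := 4 * ((n : ℝ) + 1) * ((n : ℝ) + 2) ^ 2 + 1 with hD
  have hD0 : 0 < D := by positivity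
  refine ⟨η / D, by positivity, fun K hc hk hin hout => ?_⟩
  set ε := η / D with hεd
  have hε0 : 0 < ε := by positivity
  have hεη : ε * D = η := div_mul_cancel₀ η hD0.ne'
  have hn1 : (1 : ℝ) ≤ n := by exact_mod_cast hn
  have hp4 : 0 ≤ ε * (4 * ((n : ℝ) + 1) * ((n : ℝ) + 2) ^ 2 - 2) :=
    mul_nonneg hε0.le (by nlinarith)
  have hε : ε ≤ 1 / 2 := by
    rw [hD] at hεη; nlinarith
  choose W p hpK hpj hp0 hWK hWc using exists_support hn hε0 hε hc hk hin hout
  set a : ℝ := ((n : ℝ) + 2) * ε with ha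
  set β : ℝ := 2 * ((n : ℝ) + 2) ^ 2 * ε with hβ
  have hβη : 2 * β * ((n : ℝ) + 1) + ε = η := by rw [← hεη, hD, hβ]; ring
  have hβ2 : ((n : ℝ) + 1) * β ≤ 1 / 2 := by linarith
  have ha2 : ((n : ℝ) + 1) * a ≤ 1 / 2 := by
    refine le_trans (mul_le_mul_of_nonneg_left ?_ hN.le) hβ2
    rw [ha, hβ]
    exact mul_le_mul_of_nonneg_right (by nlinarith) hε0.le
  have ha0 : 0 ≤ a := by positivity
  set Wt : Matrix (Fin (n + 1)) (Fin (n + 1)) ℝ := Matrix.of fun k i => W i k with hWt
  have hWtc : ∀ k i, |Wt k i - (if k = i then 1 else 0)| ≤ a := fun k i => by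
    have := hWc i k
    simp only [hWt, Matrix.of_apply, eq_comm (a := k)]
    exact this
  have hcN : ((n + 1 : ℕ) : ℝ) * a ≤ 1 / 2 := by push_cast; exact ha2
  have hbN : ((n + 1 : ℕ) : ℝ) * β ≤ 1 / 2 := by push_cast; exact hβ2
  obtain ⟨c, hcW⟩ := (Matrix.mulVec_surjective_iff_isUnit.2 (Matrix.mulVec_injective_iff_isUnit.1
    (near_id_injective hWtc hcN))) fun _ => 1
  have hcs : ∑ k, |c k| ≤ 2 * ((n : ℝ) + 1) := by
    have := near_id_sum hWtc hcN c
    simpa [hcW] using this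
  have hc1 : ∀ i, |c i - 1| ≤ 2 * ((n : ℝ) + 1) * a := fun i => by
    have := near_id_bound hWtc c i
    rw [hcW, abs_sub_comm] at this
    linarith [mul_le_mul_of_nonneg_left hcs ha0]
  have hci : ∀ i, 0 < c i ∧ |c i| ≤ 2 := fun i => by
    obtain ⟨u, v⟩ := abs_le.1 (hc1 i)
    constructor
    · nlinarith
    · rw [abs_le]; constructor <;> nlinarith
  set A : Matrix (Fin (n + 1)) (Fin (n + 1)) ℝ := Matrix.of fun i k => c i * W i k with hA
  have hAc : ∀ i k, |A i k - (if i = k then 1 else 0)| ≤ β := fun i k => by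
    have e : A i k - (if i = k then 1 else 0) =
        c i * (W i k - if i = k then 1 else 0) + (c i - 1) * (if i = k then 1 else 0) := by
      simp only [hA, Matrix.of_apply]; ring
    rw [e]
    refine (abs_add_le _ _).trans ?_
    rw [abs_mul, abs_mul]
    have h1 : |c i| * |W i k - if i = k then 1 else 0| ≤ 2 * a :=
      mul_le_mul (hci i).2 (hWc i k) (abs_nonneg _) zero_le_two
    have h2 : |c i - 1| * |(if i = k then (1:ℝ) else 0)| ≤ 2 * ((n : ℝ) + 1) * a := by
      refine (mul_le_of_le_one_right (abs_nonneg _) ?_).trans (hc1 i)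
      split_ifs <;> simp
    have : 2 * a + 2 * ((n : ℝ) + 1) * a = β := by rw [hβ, ha]; ring
    linarith
  have hAsum : ∀ μ : Fin (n + 1) → ℝ, ∑ j, (A *ᵥ μ) j = ∑ k, μ k := fun μ => by
    simp only [Matrix.mulVec, dotProduct]
    rw [Finset.sum_comm]
    refine Finset.sum_congr rfl fun k _ => ?_
    have : ∑ i, W i k * c i = 1 := congrFun hcW k
    rw [← Finset.sum_mul]
    simp only [hA, Matrix.of_apply, mul_comm (c _)]
    rw [this, one_mul]
  set M : Matrix (Fin n) (Fin n) ℝ := Matrix.of fun k l => A k.succ l.succ - A k.succ 0 with hM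
  set b : Fin n → ℝ := fun k => A k.succ 0 with hb
  have hT : ∀ x, bc (M *ᵥ x + b) = A *ᵥ bc x := fun x => by
    have e : M *ᵥ x + b = Fin.tail (A *ᵥ bc x) := by
      funext k
      simp only [hM, hb, Fin.tail, Pi.add_apply, Matrix.mulVec, dotProduct, Matrix.of_apply,
        Fin.sum_univ_succ, bc_zero, bc_succ, sub_mul, Finset.sum_sub_distrib, ← Finset.mul_sum]
      ring
    rw [e, bc_tail (by rw [hAsum, sum_bc])]
  have hinjA := near_id_injective hAc hbN
  have hMi : Function.Injective M.mulVec := fun x y h =>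
    bc_injective (hinjA (by rw [← hT, ← hT, show M *ᵥ x = M *ᵥ y from h]))
  have hMu := Matrix.mulVec_injective_iff_isUnit.1 hMi
  have hdet : M.det ≠ 0 := (Matrix.isUnit_iff_isUnit_det M).1 hMu |>.ne_zero
  have hl : ∀ x i, (A *ᵥ bc x) i = c i * ∑ j, bc x j * W i j := fun x i => by
    simp only [hA, Matrix.mulVec, dotProduct, Matrix.of_apply, Finset.mul_sum]
    exact Finset.sum_congr rfl fun j _ => by ring
  have hsub : (fun x => M *ᵥ x + b) '' K ⊆ cornerSimplex n := by
    rintro _ ⟨x, hx, rfl⟩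
    refine mem_simplex_iff.2 fun j => ?_
    rw [hT, hl]
    exact mul_nonneg (hci j).1.le (hWK j x hx)
  have hdiff : ∀ x j, (∀ l, 0 ≤ (A *ᵥ bc x) l) → |(A *ᵥ bc x) j - bc x j| ≤ 2 * β := fun x j h => by
    have h1 := near_id_sum hAc hbN (bc x)
    rw [Finset.sum_congr rfl fun l _ => abs_of_nonneg (h l), hAsum, sum_bc] at h1
    have := mul_le_mul_of_nonneg_left h1 (show 0 ≤ β by positivity)
    linarith [near_id_bound hAc (bc x) j]
  refine ⟨M, b, hdet, ?_⟩
  refine ⟨?_, hk.image (by fun_prop), hsub, ?_, fun i => ?_⟩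
  · have := (hc.linear_image M.mulVecLin).translate b
    rw [Matrix.coe_mulVecLin, image_image] at this
    simpa [add_comm] using this
  · intro y hy
    obtain ⟨x, hx⟩ := Matrix.mulVec_surjective_iff_isUnit.2 hMu (y - b)
    have hxy : M *ᵥ x + b = y := by rw [hx, sub_add_cancel]
    refine ⟨x, hin (mem_scaled (by linarith) fun j => ?_), hxy⟩
    have hν : ∀ l, η / ((n : ℝ) + 1) ≤ (A *ᵥ bc x) l := fun l => by
      rw [← hT, hxy]
      have := le_bc_scaled (by linarith) hy l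
      rwa [sub_sub_cancel] at this
    have h0 : ∀ l, 0 ≤ (A *ᵥ bc x) l := fun l => le_trans (by positivity) (hν l)
    rw [sub_sub_cancel]
    have e : ε / ((n : ℝ) + 1) = η / ((n : ℝ) + 1) - 2 * β := by
      rw [← hβη]; field_simp; ring
    linarith [hν j, (abs_le.1 (hdiff x j h0)).2]
  · refine ⟨M *ᵥ p i + b, ⟨p i, hpK i, rfl⟩, ?_, fun j hj => ?_⟩
    · rw [hT, hl, hp0, mul_zero]
    · rw [hT]
      have h0 : ∀ l, 0 ≤ (A *ᵥ bc (p i)) l := fun l => by
        rw [hl]; exact mul_nonneg (hci l).1.le (hWK l _ (hpK i))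
      have h1 := hdiff (p i) j h0
      have h2 := hpj i j hj
      have h3 := abs_sub_le ((A *ᵥ bc (p i)) j) (bc (p i) j) (1 / (n : ℝ))
      have h4 : 2 * β ≤ 2 * β * ((n : ℝ) + 1) :=
        le_mul_of_one_le_right (by positivity) (by linarith)
      linarith

end Vale.Agent.P254.Local
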