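import Mathlib

/-!
Integrals over the positive orthant with the weight `exp (-∑ z)`.
-/

open MeasureTheory Set Filter
open scoped Nat Topology ENNReal Pointwise

namespace Vale.Agent.P254.Local

variable {n : ℕ}

/-- The closed positive orthant. -/
def orth (n : ℕ) : Set (Fin n → ℝ) := {z | ∀ i, 0 ≤ z i}

/-- The coordinate sum. -/
def sm (z : Fin n → ℝ) : ℝ := ∑ i, z i

@[fun_prop]
lemma continuous_sm : Continuous (sm (n := n)) := by unfold sm; fun_prop

lemma sm_nonneg {z : Fin n → ℝ} (hz : z ∈ orth n) : 0 ≤ sm z :=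
  Finset.sum_nonneg fun i _ => hz i

lemma sm_smul (r : ℝ) (z : Fin n → ℝ) : sm (r • z) = r * sm z := by
  simp [sm, Finset.mul_sum]

lemma sm_add (x y : Fin n → ℝ) : sm (x + y) = sm x + sm y := by
  simp [sm, Finset.sum_add_distrib]

lemma isClosed_orth : IsClosed (orth n) := by
  simp only [orth, Set.ofPred_forall]
  exact isClosed_iInter fun i => isClosed_le continuous_const (continuous_apply i)

lemma measurableSet_orth : MeasurableSet (orth n) := isClosed_orth.measurableSet

lemma convex_orth : Convex ℝ (orth n) := fun x hx y hy a b ha hb _ i =>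
  add_nonneg (mul_nonneg ha (hx i)) (mul_nonneg hb (hy i))

lemma smul_mem_orth {z : Fin n → ℝ} (hz : z ∈ orth n) {r : ℝ} (hr : 0 ≤ r) : r • z ∈ orth n :=
  fun i => mul_nonneg hr (hz i)

lemma smul_orth {r : ℝ} (hr : 0 < r) : r • orth n = orth n := by
  ext z
  rw [Set.mem_smul_set_iff_inv_smul_mem₀ hr.ne']
  refine ⟨fun h => ?_, fun h => smul_mem_orth h (inv_nonneg.2 hr.le)⟩
  have := smul_mem_orth h hr.le
  rwa [smul_inv_smul₀ hr.ne'] at this

/-- Continuous functions of polynomial growth are integrable against the weight. -/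
lemma integrableOn_weight {f : (Fin n → ℝ) → ℝ} (hf : Continuous f) (C : ℝ) (k : ℕ)
    (hb : ∀ z ∈ orth n, |f z| ≤ C * (1 + sm z) ^ k) :
    IntegrableOn (fun z => f z * Real.exp (-sm z)) (orth n) := by
  have h1 : IntegrableOn (fun x : ℝ => Real.exp (-(1 / 2) * x)) (Ici 0) := by
    rw [integrableOn_Ici_iff_integrableOn_Ioi]
    exact exp_neg_integrableOn_Ioi 0 (by norm_num)
  have h2 : IntegrableOn (fun z : Fin n → ℝ => ∏ i, Real.exp (-(1 / 2) * z i)) (orth n) := by
    have hp : orth n = Set.pi univ fun _ => Ici (0 : ℝ) := by ext; simp [orth, Pi.le_def]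
    rw [hp, IntegrableOn, volume_pi, Measure.restrict_pi_pi]
    exact Integrable.fintype_prod fun _ => h1
  refine Integrable.mono' (h2.const_mul (|C| * (k ! * 2 ^ k) * Real.exp (1 / 2)))
    (hf.mul (by fun_prop)).aestronglyMeasurable
    ((ae_restrict_iff' measurableSet_orth).2 (ae_of_all _ fun z hz => ?_))
  have hs := sm_nonneg hz
  have he : (1 + sm z) ^ k ≤ (k ! * 2 ^ k) * Real.exp ((1 + sm z) / 2) := by
    have := Real.pow_div_factorial_le_exp ((1 + sm z) / 2) (by linarith) k
    rw [div_le_iff₀ (by positivity), div_pow, div_le_iff₀ (by positivity)] at this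
    linarith
  rw [Real.norm_eq_abs, abs_mul, abs_of_pos (Real.exp_pos _)]
  calc |f z| * Real.exp (-sm z)
      ≤ |C| * ((k ! * 2 ^ k) * Real.exp ((1 + sm z) / 2)) * Real.exp (-sm z) := by
        refine mul_le_mul_of_nonneg_right ((hb z hz).trans ?_) (Real.exp_pos _).le
        exact mul_le_mul (le_abs_self C) he (by positivity) (abs_nonneg C)
    _ = _ := by
        rw [← Real.exp_sum, mul_assoc, mul_assoc _ (Real.exp (1 / 2)), mul_assoc _ (Real.exp _),
          ← Real.exp_add, ← Real.exp_add, ← mul_assoc]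
        congr 2
        rw [← Finset.mul_sum]
        show _ = _ + _ * sm z
        ring

/-- Integrals of a homogeneous function against `exp (-r ∑ z)`. -/
lemma integral_exp_scale {f : (Fin n → ℝ) → ℝ} {k : ℕ}
    (hhom : ∀ r : ℝ, 0 < r → ∀ z ∈ orth n, f (r • z) = r ^ k * f z) {r : ℝ} (hr : 0 < r) :
    ∫ z in orth n, f z * Real.exp (-(r * sm z)) =
      ((r ^ (n + k))⁻¹) * ∫ z in orth n, f z * Real.exp (-sm z) := by
  have h := Measure.setIntegral_comp_smul_of_pos (μ := (volume : Measure (Fin n → ℝ)))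
    (fun z => f z * Real.exp (-sm z)) (orth n) hr
  rw [smul_orth hr, Module.finrank_pi, Fintype.card_fin, smul_eq_mul] at h
  rw [setIntegral_congr_fun measurableSet_orth (g := fun z => r ^ k * (f z * Real.exp (-(r * sm z))))
    (fun z hz => by rw [hhom r hr z hz, sm_smul, mul_assoc]), integral_const_mul] at h
  rw [pow_add, mul_inv, mul_comm (r ^ n)⁻¹, mul_assoc, ← h, ← mul_assoc,
    inv_mul_cancel₀ (pow_ne_zero k hr.ne'), one_mul]

/-- One more power of the coordinate sum costs a factor `n + k`. -/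
lemma integral_mul_sm {f : (Fin n → ℝ) → ℝ} {k : ℕ} (hn : 0 < n + k) (hf : Continuous f)
    (hf0 : ∀ z ∈ orth n, 0 ≤ f z) (C : ℝ) (j : ℕ)
    (hb : ∀ z ∈ orth n, f z ≤ C * (1 + sm z) ^ j)
    (hhom : ∀ r : ℝ, 0 < r → ∀ z ∈ orth n, f (r • z) = r ^ k * f z) :
    ∫ z in orth n, f z * sm z * Real.exp (-sm z) =
      (n + k : ℕ) * ∫ z in orth n, f z * Real.exp (-sm z) := by
  set N := n + k with hN
  set J := ∫ z in orth n, f z * Real.exp (-sm z)
  set X := ∫ z in orth n, f z * sm z * Real.exp (-sm z)
  have hJ : IntegrableOn (fun z => f z * Real.exp (-sm z)) (orth n) :=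
    integrableOn_weight hf C j fun z hz => by rw [abs_of_nonneg (hf0 z hz)]; exact hb z hz
  have hX : IntegrableOn (fun z => f z * sm z * Real.exp (-sm z)) (orth n) :=
    integrableOn_weight (hf.mul continuous_sm) C (j + 1) fun z hz => by
      have hs := sm_nonneg hz
      rw [abs_of_nonneg (mul_nonneg (hf0 z hz) hs)]
      calc f z * sm z ≤ C * (1 + sm z) ^ j * (1 + sm z) :=
            mul_le_mul (hb z hz) (by linarith) hs ((hf0 z hz).trans (hb z hz))
        _ = _ := by ring
  have hJ0 : 0 ≤ J :=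
    setIntegral_nonneg measurableSet_orth fun z hz => mul_nonneg (hf0 z hz) (Real.exp_pos _).le
  have hbound : ∀ r : ℝ, 1 < r → (N : ℝ) * J ≤ r ^ N * X ∧ X ≤ r * (r ^ N * N * J) := fun r hr => by
    have hr0 : 0 < r := by linarith
    have hJr : IntegrableOn (fun z => f z * Real.exp (-(r * sm z))) (orth n) := by
      refine hJ.mono' (hf.mul (by fun_prop)).aestronglyMeasurable
        ((ae_restrict_iff' measurableSet_orth).2 (ae_of_all _ fun z hz => ?_))
      rw [Real.norm_eq_abs, abs_of_nonneg (mul_nonneg (hf0 z hz) (Real.exp_pos _).le)]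
      exact mul_le_mul_of_nonneg_left (Real.exp_le_exp.2 (by nlinarith [sm_nonneg hz])) (hf0 z hz)
    have hXr : IntegrableOn (fun z => f z * sm z * Real.exp (-(r * sm z))) (orth n) := by
      refine hX.mono' ((hf.mul continuous_sm).mul (by fun_prop)).aestronglyMeasurable
        ((ae_restrict_iff' measurableSet_orth).2 (ae_of_all _ fun z hz => ?_))
      have h0 := mul_nonneg (hf0 z hz) (sm_nonneg hz)
      rw [Real.norm_eq_abs, abs_of_nonneg (mul_nonneg h0 (Real.exp_pos _).le)]
      exact mul_le_mul_of_nonneg_left (Real.exp_le_exp.2 (by nlinarith [sm_nonneg hz])) h0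
    have e1 : ∫ z in orth n, f z * Real.exp (-(r * sm z)) = (r ^ N)⁻¹ * J :=
      integral_exp_scale hhom hr0
    have e2 : ∫ z in orth n, f z * sm z * Real.exp (-(r * sm z)) = (r ^ (N + 1))⁻¹ * X := by
      have := integral_exp_scale (f := fun z => f z * sm z) (k := k + 1)
        (fun s hs z hz => by rw [hhom s hs z hz, sm_smul]; ring) hr0
      rwa [← add_assoc, ← hN] at this
    have hd : ∀ z : Fin n → ℝ,
        (r - 1) * sm z * Real.exp (-(r * sm z)) ≤ Real.exp (-sm z) - Real.exp (-(r * sm z)) ∧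
          Real.exp (-sm z) - Real.exp (-(r * sm z)) ≤ (r - 1) * sm z * Real.exp (-sm z) := fun z => by
      have p1 : Real.exp (-sm z) = Real.exp ((r - 1) * sm z) * Real.exp (-(r * sm z)) := by
        rw [← Real.exp_add]; congr 1; ring
      have p2 : Real.exp (-(r * sm z)) = Real.exp (-((r - 1) * sm z)) * Real.exp (-sm z) := by
        rw [← Real.exp_add]; congr 1; ring
      constructor
      · have := mul_le_mul_of_nonneg_right (Real.add_one_le_exp ((r - 1) * sm z))
          (Real.exp_pos (-(r * sm z))).le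
        rw [← p1] at this
        linarith
      · have := mul_le_mul_of_nonneg_right (Real.add_one_le_exp (-((r - 1) * sm z)))
          (Real.exp_pos (-sm z)).le
        rw [← p2] at this
        linarith
    have eD : ∫ z in orth n, (f z * Real.exp (-sm z) - f z * Real.exp (-(r * sm z))) =
        J - (r ^ N)⁻¹ * J := by
      rw [integral_sub hJ hJr, e1]
    have lo : (r - 1) * ((r ^ (N + 1))⁻¹ * X) ≤ J - (r ^ N)⁻¹ * J := by
      rw [← eD, ← e2, ← integral_const_mul]
      refine setIntegral_mono_on (hXr.const_mul _) (hJ.sub hJr) measurableSet_orth fun z hz => ?_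
      have := mul_le_mul_of_nonneg_left (hd z).1 (hf0 z hz)
      linarith
    have hi : J - (r ^ N)⁻¹ * J ≤ (r - 1) * X := by
      rw [← eD, ← integral_const_mul]
      refine setIntegral_mono_on (hJ.sub hJr) (hX.const_mul _) measurableSet_orth fun z hz => ?_
      have := mul_le_mul_of_nonneg_left (hd z).2 (hf0 z hz)
      linarith
    have hg := geom_sum_mul r N
    have g1 : (N : ℝ) ≤ ∑ i ∈ Finset.range N, r ^ i := by
      calc (N : ℝ) = ∑ i ∈ Finset.range N, (1 : ℝ) := by simp
        _ ≤ _ := Finset.sum_le_sum fun i _ => one_le_pow₀ hr.le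
    have g2 : ∑ i ∈ Finset.range N, r ^ i ≤ r ^ N * N := by
      calc ∑ i ∈ Finset.range N, r ^ i ≤ ∑ i ∈ Finset.range N, r ^ N :=
            Finset.sum_le_sum fun i hi => pow_le_pow_right₀ hr.le (Finset.mem_range.1 hi).le
        _ = _ := by simp [mul_comm]
    have hNp : 0 < r ^ N := pow_pos hr0 N
    constructor
    · have h3 : (r - 1) * ((∑ i ∈ Finset.range N, r ^ i) * J) ≤ (r - 1) * (r ^ N * X) := by
        have := mul_le_mul_of_nonneg_left hi hNp.le
        rw [mul_sub, ← mul_assoc (r ^ N), mul_inv_cancel₀ hNp.ne', one_mul] at this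
        linear_combination this + J * hg
      exact (mul_le_mul_of_nonneg_right g1 hJ0).trans (le_of_mul_le_mul_left h3 (by linarith))
    · have h3 : (r - 1) * X ≤ (r - 1) * (r * ((∑ i ∈ Finset.range N, r ^ i) * J)) := by
        have := mul_le_mul_of_nonneg_left lo (pow_pos hr0 (N + 1)).le
        rw [mul_sub, pow_succ, mul_left_comm (r ^ N * r) (r - 1), ← mul_assoc (r ^ N * r) _ X,
          mul_inv_cancel₀ (mul_pos hNp hr0).ne', one_mul] at this
        have e : r ^ N * r * ((r ^ N)⁻¹ * J) = r * J := by field_simp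
        rw [e] at this
        linear_combination this - r * J * hg
      refine (le_of_mul_le_mul_left h3 (by linarith)).trans ?_
      exact mul_le_mul_of_nonneg_left (mul_le_mul_of_nonneg_right g2 hJ0) hr0.le
  have t1 : Tendsto (fun r : ℝ => r ^ N * X) (𝓝[>] 1) (𝓝 X) := by
    have h : Continuous fun r : ℝ => r ^ N * X := by fun_prop
    simpa using (h.tendsto 1).mono_left nhdsWithin_le_nhds
  have t2 : Tendsto (fun r : ℝ => r * (r ^ N * N * J)) (𝓝[>] 1) (𝓝 ((N : ℝ) * J)) := by
    have h : Continuous fun r : ℝ => r * (r ^ N * N * J) := by fun_prop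
    simpa using (h.tendsto 1).mono_left nhdsWithin_le_nhds
  exact le_antisymm
    (ge_of_tendsto t2 (eventually_nhdsWithin_of_forall fun r hr => (hbound r hr).2))
    (ge_of_tendsto t1 (eventually_nhdsWithin_of_forall fun r hr => (hbound r hr).1))

/-- Integrals against `exp (-G)` reduce to the sublevel set at one. -/
lemma integral_layer {f G : (Fin n → ℝ) → ℝ} {k : ℕ} (hf : Continuous f) (hG : Continuous G)
    (hf0 : ∀ z ∈ orth n, 0 ≤ f z) (hGS : ∀ z ∈ orth n, sm z ≤ G z) (C : ℝ) (j : ℕ)
    (hb : ∀ z ∈ orth n, f z ≤ C * (1 + sm z) ^ j)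
    (hhom : ∀ r : ℝ, 0 < r → ∀ z ∈ orth n, f (r • z) = r ^ k * f z)
    (hGhom : ∀ r : ℝ, 0 < r → ∀ z, G (r • z) = r * G z) :
    ∫ z in orth n, f z * Real.exp (-G z) =
      (n + k)! * ∫ z in orth n ∩ {z | G z ≤ 1}, f z := by
  set B : ℝ → Set (Fin n → ℝ) := fun t => orth n ∩ {z | G z ≤ t} with hB
  have hBc : ∀ t, IsCompact (B t) := fun t => by
    refine Metric.isCompact_of_isClosed_isBounded (isClosed_orth.inter (isClosed_le hG continuous_const))
      ((isCompact_Icc (a := (0 : Fin n → ℝ)) (b := fun _ => t)).isBounded.subset ?_)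
    rintro z ⟨hz, hzt⟩
    exact ⟨fun i => hz i, fun i => ((Finset.single_le_sum (f := fun i => z i) (fun i _ => hz i)
      (Finset.mem_univ i)).trans (hGS z hz)).trans hzt⟩
  have hBm : ∀ t, MeasurableSet (B t) := fun t => (hBc t).measurableSet
  have hint : ∀ t, IntegrableOn f (B t) := fun t => hf.continuousOn.integrableOn_compact (hBc t)
  set A := ∫ z in B 1, f z with hA
  have hA0 : 0 ≤ A := setIntegral_nonneg (hBm 1) fun z hz => hf0 z hz.1
  have hscale : ∀ t : ℝ, 0 < t → ∫ z in B t, f z = t ^ (n + k) * A := fun t ht => by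
    have e : t • B 1 = B t := by
      ext z
      rw [Set.mem_smul_set_iff_inv_smul_mem₀ ht.ne']
      simp only [hB, mem_inter_iff, mem_ofPred_eq, hGhom _ (inv_pos.2 ht)]
      rw [inv_mul_le_iff₀ ht, mul_one, ← Set.mem_smul_set_iff_inv_smul_mem₀ ht.ne', smul_orth ht]
    have h := Measure.setIntegral_comp_smul_of_pos (μ := (volume : Measure (Fin n → ℝ))) f (B 1) ht
    rw [e, Module.finrank_pi, Fintype.card_fin, smul_eq_mul,
      setIntegral_congr_fun (hBm 1) (g := fun z => t ^ k * f z) (fun z hz => hhom t ht z hz.1),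
      integral_const_mul, ← hA, eq_inv_mul_iff_mul_eq₀ (pow_ne_zero n ht.ne')] at h
    rw [← h, pow_add]; ring
  have hE : IntegrableOn (fun z => f z * Real.exp (-G z)) (orth n) := by
    refine (integrableOn_weight hf C j fun z hz => ?_).mono' (hf.mul (by fun_prop)).aestronglyMeasurable
      ((ae_restrict_iff' measurableSet_orth).2 (ae_of_all _ fun z hz => ?_))
    · rw [abs_of_nonneg (hf0 z hz)]; exact hb z hz
    · rw [Real.norm_eq_abs, abs_of_nonneg (mul_nonneg (hf0 z hz) (Real.exp_pos _).le)]
      exact mul_le_mul_of_nonneg_left (Real.exp_le_exp.2 (by linarith [hGS z hz])) (hf0 z hz)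
  set F : (Fin n → ℝ) → ℝ → ℝ≥0∞ := fun z t =>
    Set.indicator {p : (Fin n → ℝ) × ℝ | G p.1 ≤ p.2}
      (fun p => ENNReal.ofReal (f p.1) * ENNReal.ofReal (Real.exp (-p.2))) (z, t) with hF
  have hFm : Measurable (Function.uncurry F) := by
    refine Measurable.indicator ?_ ?_
    · exact ((ENNReal.measurable_ofReal.comp (hf.measurable.comp measurable_fst)).mul
        (ENNReal.measurable_ofReal.comp ((Real.continuous_exp.measurable.comp measurable_snd.neg))))
    · exact measurableSet_le (hG.measurable.comp measurable_fst) measurable_snd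
  have key : ENNReal.ofReal (∫ z in orth n, f z * Real.exp (-G z)) =
      ENNReal.ofReal (((n + k)! : ℝ) * A) := by
    rw [ofReal_integral_eq_lintegral_ofReal hE ((ae_restrict_iff' measurableSet_orth).2
      (ae_of_all _ fun z hz => mul_nonneg (hf0 z hz) (Real.exp_pos _).le))]
    have e1 : ∫⁻ z in orth n, ENNReal.ofReal (f z * Real.exp (-G z)) =
        ∫⁻ z in orth n, ∫⁻ t in Ioi (0 : ℝ), F z t := by
      refine setLIntegral_congr_fun measurableSet_orth fun z hz => ?_
      have hg0 : 0 ≤ G z := (sm_nonneg hz).trans (hGS z hz)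
      have : ∀ t, F z t = (Ici (G z)).indicator
          (fun t => ENNReal.ofReal (f z) * ENNReal.ofReal (Real.exp (-t))) t := fun t => by
        simp only [hF, Set.indicator_apply, mem_ofPred_eq, mem_Ici]
      simp only [this]
      rw [lintegral_indicator measurableSet_Ici,
        Measure.restrict_restrict measurableSet_Ici, lintegral_const_mul _ (by fun_prop),
        ENNReal.ofReal_mul (hf0 z hz)]
      congr 1
      have e : (Ici (G z) ∩ Ioi 0 : Set ℝ) =ᵐ[volume] Ioi (G z) := by
        rcases hg0.eq_or_lt with h | h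
        · rw [← h, Set.inter_eq_right.2 Ioi_subset_Ici_self]; exact ae_eq_refl _
        · rw [Set.inter_eq_left.2 (Ici_subset_Ioi.2 h)]; exact Ioi_ae_eq_Ici.symm
      rw [setLIntegral_congr e, ← ofReal_integral_eq_lintegral_ofReal
        (integrableOn_exp_neg_Ioi (G z)) (ae_of_all _ fun t => (Real.exp_pos _).le),
        integral_exp_neg_Ioi]
    rw [e1, lintegral_lintegral_swap hFm.aemeasurable]
    have e2 : ∫⁻ t in Ioi (0 : ℝ), ∫⁻ z in orth n, F z t =
        ∫⁻ t in Ioi (0 : ℝ), ENNReal.ofReal (Real.exp (-t) * t ^ (n + k) * A) := by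
      refine setLIntegral_congr_fun measurableSet_Ioi fun t ht => ?_
      have : ∀ z, F z t = ({z | G z ≤ t} : Set _).indicator
          (fun z => ENNReal.ofReal (f z) * ENNReal.ofReal (Real.exp (-t))) z := fun z => by
        simp only [hF, Set.indicator_apply, mem_ofPred_eq]
      simp only [this]
      rw [lintegral_indicator (isClosed_le hG continuous_const).measurableSet,
        Measure.restrict_restrict (isClosed_le hG continuous_const).measurableSet,
        lintegral_mul_const _ (by fun_prop), Set.inter_comm,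
        ← ofReal_integral_eq_lintegral_ofReal (hint t)
          ((ae_restrict_iff' (hBm t)).2 (ae_of_all _ fun z hz => hf0 z hz.1)),
        hscale t ht, ← ENNReal.ofReal_mul (mul_nonneg (pow_nonneg (le_of_lt ht) _) hA0)]
      congr 1; ring
    rw [e2]
    have hgam : IntegrableOn (fun t : ℝ => Real.exp (-t) * t ^ (n + k)) (Ioi 0) := by
      refine (Real.GammaIntegral_convergent (s := ((n + k : ℕ) : ℝ) + 1) (by positivity)).congr_fun
        (fun t _ => ?_) measurableSet_Ioi
      simp only [add_sub_cancel_right, Real.rpow_natCast]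
    have hgv : ∫ t in Ioi (0 : ℝ), Real.exp (-t) * t ^ (n + k) = (n + k)! := by
      have := Real.Gamma_nat_eq_factorial (n + k)
      rw [Real.Gamma_eq_integral (by positivity)] at this
      rw [← this]
      refine setIntegral_congr_fun measurableSet_Ioi fun t _ => ?_
      simp only [add_sub_cancel_right, Real.rpow_natCast]
    rw [← ofReal_integral_eq_lintegral_ofReal (hgam.mul_const A)
      ((ae_restrict_iff' measurableSet_Ioi).2 (ae_of_all _ fun t ht =>
        mul_nonneg (mul_nonneg (Real.exp_pos _).le (pow_nonneg (le_of_lt ht) _)) hA0)),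
      integral_mul_const, hgv]
  exact (ENNReal.ofReal_eq_ofReal_iff
    (setIntegral_nonneg measurableSet_orth fun z hz => mul_nonneg (hf0 z hz) (Real.exp_pos _).le)
    (by positivity)).1 key

end Vale.Agent.P254.Local
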