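import Vale.Agent.P254.Local.Core

/-!
A convex homogeneous defect that is small at the centre is strictly positive against the simplex
weight `∑ z i ^ 2 - 2 (n + 2)`.
-/

open MeasureTheory Set Filter

namespace Vale.Agent.P254.Local

variable {n : ℕ}

/-- A convex, nonnegative, homogeneous function on the orthant, at most the coordinate sum. -/
structure Defect (δ : (Fin n → ℝ) → ℝ) : Prop where
  cont : Continuous δ
  convex : ConvexOn ℝ (orth n) δ
  nonneg : ∀ z ∈ orth n, 0 ≤ δ z
  le_sm : ∀ z ∈ orth n, δ z ≤ sm z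
  hom : ∀ r : ℝ, 0 < r → ∀ z ∈ orth n, δ (r • z) = r * δ z

/-- The weighted mass of a defect. -/
noncomputable def mass (δ : (Fin n → ℝ) → ℝ) : ℝ := ∫ z in orth n, δ z * Real.exp (-sm z)

/-- The weighted mass of a defect against the squares. -/
noncomputable def sqMass (δ : (Fin n → ℝ) → ℝ) : ℝ :=
  ∫ z in orth n, δ z * (∑ i, z i ^ 2) * Real.exp (-sm z)

/-- The point with all coordinates one. -/
def one (n : ℕ) : Fin n → ℝ := fun _ => 1

lemma one_mem : one n ∈ orth n := fun _ => zero_le_one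

lemma sm_one : sm (one n) = n := by simp [sm, one]

lemma sum_sq_le {z : Fin n → ℝ} (hz : z ∈ orth n) : ∑ i, z i ^ 2 ≤ sm z ^ 2 :=
  Finset.sum_sq_le_sq_sum_of_nonneg fun i _ => hz i

variable {δ : (Fin n → ℝ) → ℝ}

lemma Defect.subadd (h : Defect δ) {x y : Fin n → ℝ} (hx : x ∈ orth n) (hy : y ∈ orth n) :
    δ (x + y) ≤ δ x + δ y := by
  have hc := h.convex.2 hx hy (show (0 : ℝ) ≤ 1 / 2 by norm_num) (show (0 : ℝ) ≤ 1 / 2 by norm_num)
    (by norm_num)
  rw [← smul_add, h.hom _ (by norm_num) (x + y) (fun i => add_nonneg (hx i) (hy i))] at hc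
  simp only [smul_eq_mul] at hc
  linarith

lemma Defect.mass_nonneg (h : Defect δ) : 0 ≤ mass δ :=
  setIntegral_nonneg measurableSet_orth fun z hz => mul_nonneg (h.nonneg z hz) (Real.exp_pos _).le

lemma Defect.integrable (h : Defect δ) {g : (Fin n → ℝ) → ℝ} (hg : Continuous g) (C : ℝ) (k : ℕ)
    (hb : ∀ z ∈ orth n, |g z| ≤ C * (1 + sm z) ^ k) :
    IntegrableOn (fun z => δ z * g z * Real.exp (-sm z)) (orth n) :=
  integrableOn_weight (h.cont.mul hg) C (k + 1) fun z hz => by
    rw [abs_mul, abs_of_nonneg (h.nonneg z hz)]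
    calc δ z * |g z| ≤ (1 + sm z) * (C * (1 + sm z) ^ k) :=
          mul_le_mul ((h.le_sm z hz).trans (by linarith)) (hb z hz) (abs_nonneg _)
            (by linarith [sm_nonneg hz])
      _ = _ := by ring

lemma Defect.moments (h : Defect δ) (hn : 0 < n) :
    (∫ z in orth n, δ z * sm z * Real.exp (-sm z) = (n + 1) * mass δ) ∧
      ∫ z in orth n, δ z * sm z ^ 2 * Real.exp (-sm z) = (n + 2) * (n + 1) * mass δ := by
  have h1 := integral_mul_sm (k := 1) (by omega) h.cont h.nonneg 1 1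
    (fun z hz => by linarith [h.le_sm z hz, sm_nonneg hz])
    fun r hr z hz => by rw [h.hom r hr z hz, pow_one]
  have h2 := integral_mul_sm (f := fun z => δ z * sm z) (k := 2) (by omega)
    (h.cont.mul continuous_sm) (fun z hz => mul_nonneg (h.nonneg z hz) (sm_nonneg hz)) 1 2
    (fun z hz => by nlinarith [h.le_sm z hz, h.nonneg z hz, sm_nonneg hz])
    fun r hr z hz => by rw [h.hom r hr z hz, sm_smul]; ring
  push_cast at h1 h2
  refine ⟨h1, ?_⟩
  simp only [pow_two, ← mul_assoc]
  rw [h2, h1, mass]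
  ring

/-- The mass of `∑ z ^ 2` in the shifted orthant. -/
lemma Defect.core_sq_le (h : Defect δ) (hn : 0 < n) {a : ℝ} (ha : 0 ≤ a) :
    Real.exp (n * a) * ∫ z in part a (Finset.univ : Finset (Fin n)),
        δ z * sm z ^ 2 * Real.exp (-sm z) ≤
      ((n + 2) * (n + 1) + 2 * n * a * (n + 1) + n ^ 2 * a ^ 2) * mass δ +
        a * δ (one n) * ∫ z in orth n, (sm z + n * a) ^ 2 * Real.exp (-sm z) := by
  set c := (n : ℝ) * a with hc
  set v : Fin n → ℝ := a • one n
  have hv : v ∈ orth n := smul_mem_orth one_mem ha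
  have hsv : ∀ u, sm (u + v) = sm u + c := fun u => by
    rw [sm_add, sm_smul, sm_one, hc, mul_comm]
  set F := fun z => δ z * sm z ^ 2 * Real.exp (-sm z) with hF
  have hpart : ∀ u, u + v ∈ part a (Finset.univ : Finset (Fin n)) ↔ u ∈ orth n := fun u => by
    simp only [part, mem_ofPred_eq, Finset.mem_univ, iff_true, orth, v, one, Pi.add_apply,
      Pi.smul_apply, smul_eq_mul, mul_one]
    exact ⟨fun hu i => by linarith [(hu i).2], fun hu i => ⟨by linarith [hu i], by linarith [hu i]⟩⟩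
  have e : ∫ z in part a (Finset.univ : Finset (Fin n)), F z =
      ∫ u in orth n, F (u + v) := by
    rw [← integral_indicator (measurableSet_part _ _), ← integral_indicator measurableSet_orth,
      ← integral_add_right_eq_self ((part a (Finset.univ : Finset (Fin n))).indicator F) v]
    refine integral_congr_ae (ae_of_all _ fun u => ?_)
    show (part a (Finset.univ : Finset (Fin n))).indicator F (u + v) = _
    by_cases hu : u ∈ orth n
    · rw [Set.indicator_of_mem hu, Set.indicator_of_mem ((hpart u).2 hu)]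
    · rw [Set.indicator_of_notMem hu, Set.indicator_of_notMem (mt (hpart u).1 hu)]
  rw [e, ← integral_const_mul]
  have hc0 : 0 ≤ c := mul_nonneg n.cast_nonneg ha
  have hb : ∀ z ∈ orth n, |(sm z + c) ^ 2| ≤ (1 + c) ^ 2 * (1 + sm z) ^ 2 := fun z hz => by
    have hs := sm_nonneg hz
    rw [abs_of_nonneg (sq_nonneg _), ← mul_pow]
    exact pow_le_pow_left₀ (by linarith) (by nlinarith) 2
  have i1 := h.integrable (g := fun z => (sm z + c) ^ 2) (by fun_prop) _ _ hb
  have i2 := integrableOn_weight (f := fun z : Fin n → ℝ => (sm z + c) ^ 2) (by fun_prop) _ _ hb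
  have hpt : ∀ u ∈ orth n, Real.exp c * F (u + v) ≤
      δ u * (sm u + c) ^ 2 * Real.exp (-sm u) +
        a * δ (one n) * ((sm u + c) ^ 2 * Real.exp (-sm u)) := fun u hu => by
    have hd : δ (u + v) ≤ δ u + a * δ (one n) := by
      refine (h.subadd hu hv).trans (add_le_add le_rfl ?_)
      rcases ha.eq_or_lt with h0 | h0
      · simp only [v, ← h0, zero_smul, zero_mul]
        exact (h.le_sm 0 fun i => le_refl _).trans (by simp [sm])
      · exact (h.hom a h0 _ one_mem).le
    have e : Real.exp c * Real.exp (-(sm u + c)) = Real.exp (-sm u) := by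
      rw [← Real.exp_add]; congr 1; ring
    calc Real.exp c * F (u + v) = δ (u + v) * ((sm u + c) ^ 2 * Real.exp (-sm u)) := by
          rw [hF, ← e]; simp only [hsv]; ring
      _ ≤ (δ u + a * δ (one n)) * ((sm u + c) ^ 2 * Real.exp (-sm u)) :=
          mul_le_mul_of_nonneg_right hd (by positivity)
      _ = _ := by ring
  have hint : IntegrableOn (fun u => Real.exp c * F (u + v)) (orth n) := by
    refine (i1.add (i2.const_mul (a * δ (one n)))).mono'
      ((h.cont.comp (continuous_id.add continuous_const)).mul (by fun_prop) |>.mul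
        (by fun_prop) |>.const_smul (Real.exp c)).aestronglyMeasurable
      ((ae_restrict_iff' measurableSet_orth).2 (ae_of_all _ fun u hu => ?_))
    rw [Real.norm_eq_abs, abs_of_nonneg]
    · exact hpt u hu
    · exact mul_nonneg (Real.exp_pos _).le (mul_nonneg (mul_nonneg
        (h.nonneg _ fun i => add_nonneg (hu i) (hv i)) (sq_nonneg _)) (Real.exp_pos _).le)
  refine (setIntegral_mono_on hint (i1.add (i2.const_mul _)) measurableSet_orth hpt).trans_eq ?_
  simp only [Pi.add_apply]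
  rw [integral_add i1 (i2.const_mul _), integral_const_mul]
  congr 1
  obtain ⟨m1, m2⟩ := h.moments hn
  have j0 := h.integrable (g := fun _ => c ^ 2) continuous_const (c ^ 2) 0 (by simp)
  have j1 := h.integrable (g := fun z => 2 * c * sm z) (by fun_prop) (2 * c) 1 fun z hz => by
    rw [abs_of_nonneg (by have := sm_nonneg hz; positivity), pow_one]
    nlinarith [sm_nonneg hz]
  have j2 := h.integrable (g := fun z => sm z ^ 2) (by fun_prop) 1 2 fun z hz => by
    rw [abs_of_nonneg (sq_nonneg _), one_mul]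
    exact pow_le_pow_left₀ (sm_nonneg hz) (by linarith) 2
  have e3 : ∀ z : Fin n → ℝ, δ z * (sm z + c) ^ 2 * Real.exp (-sm z) =
      δ z * sm z ^ 2 * Real.exp (-sm z) + δ z * (2 * c * sm z) * Real.exp (-sm z) +
        δ z * c ^ 2 * Real.exp (-sm z) := fun z => by ring
  simp only [e3]
  rw [integral_add (by exact j2.add j1) j0, integral_add j2 j1]
  have e4 : ∫ z in orth n, δ z * (2 * c * sm z) * Real.exp (-sm z) =
      2 * c * ((n + 1) * mass δ) := by
    rw [← m1, ← integral_const_mul]; congr 1; funext z; ring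
  have e5 : ∫ z in orth n, δ z * c ^ 2 * Real.exp (-sm z) = c ^ 2 * mass δ := by
    rw [mass, ← integral_const_mul]; congr 1; funext z; ring
  rw [e4, e5, m2, hc]
  ring

/-- The inequality on each part. -/
lemma Defect.part_ineq (h : Defect δ) (hn : 2 ≤ n) {a θ : ℝ} (ha : 0 ≤ a) (hθ : 0 < θ)
    (hκ : θ ≤ 2 / ((n : ℝ) * (n + 1))) (T : Finset (Fin n)) :
    ∫ z in part a T, δ z * (if T = Finset.univ then
        2 / (n + 1 : ℝ) * sm z ^ 2 - 2 * (n - 1) / (n + 1) * a * sm z - 2 * n * a ^ 2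
      else 2 / (n + 1 : ℝ) * sm z ^ 2 + (2 / ((n : ℝ) * (n + 1)) - θ) * sm z ^ 2 - 4 * a ^ 2 / θ) *
        Real.exp (-sm z) ≤
      ∫ z in part a T, δ z * (∑ i, z i ^ 2) * Real.exp (-sm z) := by
  have hcore := core_ineq h.cont ha (T := T) h.convex h.nonneg 1 1 fun z hz => by
    linarith [h.le_sm z hz]
  have hn2 : (2 : ℝ) ≤ n := by exact_mod_cast hn
  have sub := part_subset a T
  have s2 : ∀ z ∈ part a T, 0 ≤ ext1 a T z ∧ ext1 a T z ≤ sm z ∧ ext2 a T z ≤ sm z ^ 2 := by
    intro z hz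
    have h0 := sub hz
    have e1 : ext1 a T z ≤ sm z := (Finset.sum_le_sum (g := fun i => z i) fun i _ => by linarith).trans
      (Finset.sum_le_sum_of_subset_of_nonneg (Finset.subset_univ T) fun i _ _ => h0 i)
    refine ⟨ext1_nonneg hz, e1, le_trans ?_ (sum_sq_le h0)⟩
    refine (Finset.sum_le_sum (g := fun i => z i ^ 2) fun i hi => ?_).trans
      (Finset.sum_le_sum_of_subset_of_nonneg (Finset.subset_univ T) fun i _ _ => sq_nonneg _)
    exact pow_le_pow_left₀ (sub_nonneg.2 ((hz i).2.2 hi)) (by linarith) 2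
  have hi : ∀ g : (Fin n → ℝ) → ℝ, Continuous g → ∀ A B : ℝ, 0 ≤ A → 0 ≤ B →
      (∀ z ∈ part a T, |g z| ≤ A * sm z ^ 2 + B) →
      IntegrableOn (fun z => δ z * g z * Real.exp (-sm z)) (part a T) := by
    intro g hg A B hA hB hgb
    have := h.integrable (g := fun z => A * sm z ^ 2 + B) (by fun_prop) (A + B) 2 fun z hz => by
      have hs := sm_nonneg hz
      rw [abs_of_nonneg (by positivity)]
      nlinarith [mul_nonneg hA hs, mul_nonneg hB hs, mul_nonneg hB (sq_nonneg (sm z))]
    refine (this.mono_set sub).mono' ((h.cont.mul hg).mul (by fun_prop)).aestronglyMeasurable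
      ((ae_restrict_iff' (measurableSet_part a T)).2 (ae_of_all _ fun z hz => ?_))
    rw [Real.norm_eq_abs, abs_mul, abs_mul, abs_of_nonneg (h.nonneg z (sub hz)),
      abs_of_pos (Real.exp_pos _)]
    exact mul_le_mul_of_nonneg_right (mul_le_mul_of_nonneg_left (hgb z hz) (h.nonneg z (sub hz)))
      (Real.exp_pos _).le
  have hc1 : Continuous (ext1 a T) := by unfold ext1; fun_prop
  have hc2 : Continuous (ext2 a T) := by unfold ext2; fun_prop
  have iE1 := hi (fun z => ext1 a T z ^ 2) (by fun_prop) 1 0 zero_le_one le_rfl fun z hz => by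
    rw [abs_of_nonneg (sq_nonneg _)]
    linarith [pow_le_pow_left₀ (s2 z hz).1 (s2 z hz).2.1 2]
  have iE2 := hi _ hc2 1 0 zero_le_one le_rfl fun z hz => by
    rw [abs_of_nonneg (Finset.sum_nonneg fun i _ => sq_nonneg _)]; linarith [(s2 z hz).2.2]
  have iL := hi (fun z => 2 * a * ext1 a T z) (by fun_prop) a a ha ha fun z hz => by
    rw [abs_of_nonneg (mul_nonneg (by linarith) (s2 z hz).1)]
    nlinarith [(s2 z hz).2.1, sq_nonneg (sm z - 1), mul_nonneg ha (sq_nonneg (sm z - 1))]
  have iS := hi (fun z => ∑ i, z i ^ 2) (by fun_prop) 1 0 zero_le_one le_rfl fun z hz => by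
    rw [abs_of_nonneg (Finset.sum_nonneg fun i _ => sq_nonneg _)]; linarith [sum_sq_le (sub hz)]
  set m : ℝ := (T.card : ℝ)
  have step : ∫ z in part a T,
        δ z * (2 / (m + 1) * ext1 a T z ^ 2 + 2 * a * ext1 a T z) * Real.exp (-sm z) ≤
      ∫ z in part a T, δ z * (∑ i, z i ^ 2) * Real.exp (-sm z) := by
    have e : ∀ z, δ z * (2 / (m + 1) * ext1 a T z ^ 2 + 2 * a * ext1 a T z) * Real.exp (-sm z) =
        2 / (m + 1) * (δ z * ext1 a T z ^ 2 * Real.exp (-sm z)) +
          δ z * (2 * a * ext1 a T z) * Real.exp (-sm z) := fun z => by ring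
    simp only [e]
    rw [integral_add (iE1.const_mul _) iL, integral_const_mul]
    refine (add_le_add hcore le_rfl).trans ?_
    rw [← integral_add iE2 iL]
    refine setIntegral_mono_on (iE2.add iL) iS (measurableSet_part a T) fun z hz => ?_
    simp only [← add_mul, ← mul_add]
    refine mul_le_mul_of_nonneg_right (mul_le_mul_of_nonneg_left ?_ (h.nonneg z (sub hz)))
      (Real.exp_pos _).le
    refine le_trans ?_ (Finset.sum_le_sum_of_subset_of_nonneg (Finset.subset_univ T)
      fun i _ _ => sq_nonneg (z i))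
    rw [ext1, ext2, Finset.mul_sum, ← Finset.sum_add_distrib]
    exact Finset.sum_le_sum fun i _ => by nlinarith
  refine le_trans ?_ step
  have hiR := hi (fun z => 2 / (m + 1) * ext1 a T z ^ 2 + 2 * a * ext1 a T z) (by fun_prop)
    (2 + a) a (by linarith) ha fun z hz => by
      obtain ⟨p0, p1, -⟩ := s2 z hz
      have hm : 2 / (m + 1) ≤ 2 := div_le_self zero_le_two (by simp [m])
      rw [abs_of_nonneg (by positivity)]
      nlinarith [pow_le_pow_left₀ p0 p1 2, mul_le_mul_of_nonneg_right hm (sq_nonneg (ext1 a T z)),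
        mul_nonneg ha (sq_nonneg (sm z - 1)), mul_le_mul_of_nonneg_left p1 ha]
  by_cases hT : T = Finset.univ
  · subst hT
    have hiL := hi (fun z => 2 / (n + 1 : ℝ) * sm z ^ 2 - 2 * (n - 1) / (n + 1) * a * sm z -
        2 * n * a ^ 2) (by fun_prop) (2 + a) (a + 2 * n * a ^ 2) (by linarith) (by positivity)
      fun z hz => by
        have hs := sm_nonneg (sub hz)
        have q1 : 2 / (n + 1 : ℝ) ≤ 2 := div_le_self zero_le_two (by linarith)
        have q2 : 2 * (n - 1) / (n + 1 : ℝ) ≤ 2 := by rw [div_le_iff₀ (by linarith)]; linarith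
        have q3 : (0 : ℝ) ≤ 2 * (n - 1) / (n + 1) := div_nonneg (by linarith) (by linarith)
        have q4 : 2 * (n - 1) / (n + 1 : ℝ) * a * sm z ≤ a * sm z ^ 2 + a := by
          nlinarith [mul_le_mul_of_nonneg_right q2 (mul_nonneg ha hs),
            mul_nonneg ha (sq_nonneg (sm z - 1))]
        have q5 : 0 ≤ 2 * (n - 1) / (n + 1 : ℝ) * a * sm z := mul_nonneg (mul_nonneg q3 ha) hs
        have q6 : 0 ≤ 2 / (n + 1 : ℝ) * sm z ^ 2 := by positivity
        rw [abs_le]
        constructor <;> nlinarith [mul_le_mul_of_nonneg_right q1 (sq_nonneg (sm z))]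
    simp only [if_pos] at *
    refine setIntegral_mono_on hiL hiR (measurableSet_part _ _) fun z hz => ?_
    refine mul_le_mul_of_nonneg_right (mul_le_mul_of_nonneg_left ?_ (h.nonneg z (sub hz)))
      (Real.exp_pos _).le
    have e : ext1 a (Finset.univ : Finset (Fin n)) z = sm z - n * a := by
      simp [ext1, sm, Finset.sum_sub_distrib]
    have hm : m = n := by simp [m]
    rw [e, hm]
    have key : 2 / (n + 1 : ℝ) * (sm z - n * a) ^ 2 + 2 * a * (sm z - n * a) =
        2 / (n + 1 : ℝ) * sm z ^ 2 - 2 * (n - 1) / (n + 1) * a * sm z - 2 * n * a ^ 2 +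
          2 / (n + 1 : ℝ) * (n * a) ^ 2 := by
      field_simp
      ring
    rw [key]
    have : 0 ≤ 2 / (n + 1 : ℝ) * ((n : ℝ) * a) ^ 2 := by positivity
    linarith
  · have hiL := hi (fun z => 2 / (n + 1 : ℝ) * sm z ^ 2 +
        (2 / ((n : ℝ) * (n + 1)) - θ) * sm z ^ 2 - 4 * a ^ 2 / θ) (by fun_prop) 4 (4 * a ^ 2 / θ)
      (by norm_num) (by positivity) fun z hz => by
        have q1 : 2 / (n + 1 : ℝ) ≤ 2 := div_le_self zero_le_two (by linarith)
        have q2 : 2 / ((n : ℝ) * (n + 1)) ≤ 2 := div_le_self zero_le_two (by nlinarith)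
        have q3 : 0 ≤ 4 * a ^ 2 / θ := by positivity
        have q6 : 0 ≤ 2 / (n + 1 : ℝ) * sm z ^ 2 := by positivity
        have q7 := mul_nonneg (sub_nonneg.2 hκ) (sq_nonneg (sm z))
        rw [abs_le]
        constructor <;> nlinarith [mul_le_mul_of_nonneg_right q1 (sq_nonneg (sm z)),
          mul_le_mul_of_nonneg_right q2 (sq_nonneg (sm z)), mul_nonneg hθ.le (sq_nonneg (sm z))]
    simp only [if_neg hT]
    refine setIntegral_mono_on hiL hiR (measurableSet_part _ _) fun z hz => ?_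
    refine mul_le_mul_of_nonneg_right (mul_le_mul_of_nonneg_left ?_ (h.nonneg z (sub hz)))
      (Real.exp_pos _).le
    have hlow : sm z - n * a ≤ ext1 a T z := by
      have e : sm z = ∑ i ∈ T, z i + ∑ i ∈ Tᶜ, z i := (Finset.sum_add_sum_compl T _).symm
      have hc : ∑ i ∈ Tᶜ, z i ≤ (Tᶜ.card : ℝ) * a := by
        rw [← nsmul_eq_mul]
        exact Finset.sum_le_card_nsmul _ _ _ fun i hi =>
          le_of_lt (not_le.1 fun hh => Finset.mem_compl.1 hi ((hz i).2.1 hh))
      have hcard : (T.card : ℝ) + (Tᶜ.card : ℝ) = n := by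
        rw [← Nat.cast_add, Finset.card_add_card_compl, Fintype.card_fin]
      have e1 : ext1 a T z = ∑ i ∈ T, z i - (T.card : ℝ) * a := by
        simp [ext1, Finset.sum_sub_distrib]
      rw [e, e1, ← hcard, add_mul]
      linarith
    have hm : m + 1 ≤ n := by
      have := Finset.card_lt_card (Finset.ssubset_univ_iff.2 hT)
      rw [Finset.card_univ, Fintype.card_fin] at this
      simp only [m]; exact_mod_cast this
    have hs := sm_nonneg (sub hz)
    obtain ⟨p0, p1, -⟩ := s2 z hz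
    have hsq : sm z ^ 2 - 2 * n * a * sm z ≤ ext1 a T z ^ 2 := by
      rcases le_or_gt (n * a) (sm z) with c | c
      · nlinarith [pow_le_pow_left₀ (sub_nonneg.2 c) hlow 2, sq_nonneg ((n : ℝ) * a)]
      · nlinarith [sq_nonneg (ext1 a T z)]
    have hdiv : 2 / (n : ℝ) ≤ 2 / (m + 1) :=
      div_le_div_of_nonneg_left zero_le_two (by positivity) hm
    have h2n : 2 / (n : ℝ) = 2 / (n + 1) + 2 / ((n : ℝ) * (n + 1)) := by field_simp
    have hθ2 : 4 * a * sm z ≤ θ * sm z ^ 2 + 4 * a ^ 2 / θ := by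
      have : 0 ≤ (θ * sm z - 2 * a) ^ 2 / θ := by positivity
      have e : (θ * sm z - 2 * a) ^ 2 / θ = θ * sm z ^ 2 - 4 * a * sm z + 4 * a ^ 2 / θ := by
        field_simp; ring
      linarith
    have h1 := mul_le_mul_of_nonneg_left hsq (show (0 : ℝ) ≤ 2 / n by positivity)
    have h2 := mul_le_mul_of_nonneg_right hdiv (sq_nonneg (ext1 a T z))
    have e : 2 / (n : ℝ) * (sm z ^ 2 - 2 * n * a * sm z) =
        2 / (n : ℝ) * sm z ^ 2 - 4 * a * sm z := by field_simp; ring
    nlinarith [mul_nonneg ha p0]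

/-- The arithmetic behind `gap_lower`. -/
lemma gap_arith {N a θ κ J K2 K1 K0 B X : ℝ} (hN : 2 ≤ N) (ha : 0 ≤ a) (hθ : 0 < θ) (hJ : 0 ≤ J)
    (hκ0 : 0 ≤ κ - θ) (hκ1 : κ - θ ≤ 1) (e1 : (κ - θ) * (N ^ 2 * (N + 1)) = 2 * N - 1)
    (hB : B = N ^ 3 * (N + 1) + N ^ 2 + (2 * N + 4 / θ)) (hBa : B * a = 1 / 4)
    (coll : N ^ 2 * (N + 1) * a * J - (N ^ 3 * (N + 1) + N ^ 2) * a ^ 2 * J - a * J / 4 ≤
      (N + 2) * (N + 1) * J - K2)
    (k1 : K1 ≤ (N + 1) * J) (k0 : 0 ≤ K0) (k0' : K0 ≤ J)
    (main : 2 / (N + 1) * ((N + 2) * (N + 1) * J) + (κ - θ) * ((N + 2) * (N + 1) * J) -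
      4 * a ^ 2 / θ * J + (-(κ - θ) * K2 - 2 * (N - 1) / (N + 1) * a * K1 +
        (4 * a ^ 2 / θ - 2 * N * a ^ 2) * K0) ≤ X) :
    a / 2 * J ≤ X - 2 * (N + 2) * J := by
  have g : (2 * N - 1) * (a * J) - (κ - θ) * ((N ^ 3 * (N + 1) + N ^ 2) * a ^ 2 * J) -
      (κ - θ) * (a * J / 4) ≤ (κ - θ) * ((N + 2) * (N + 1) * J) - (κ - θ) * K2 := by
    rw [← mul_sub (κ - θ) ((N + 2) * (N + 1) * J) K2]
    refine le_of_eq_of_le ?_ (mul_le_mul_of_nonneg_left coll hκ0)
    rw [← e1]; ring
  have c3 : (κ - θ) * ((N ^ 3 * (N + 1) + N ^ 2) * a ^ 2 * J) ≤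
      (N ^ 3 * (N + 1) + N ^ 2) * a ^ 2 * J := mul_le_of_le_one_left (by positivity) hκ1
  have c4 : (κ - θ) * (a * J / 4) ≤ a * J / 4 := mul_le_of_le_one_left (by positivity) hκ1
  have c5 : 2 * (N - 1) / (N + 1) * a * K1 ≤ 2 * (N - 1) * (a * J) := by
    refine (mul_le_mul_of_nonneg_left k1 (mul_nonneg (div_nonneg (by linarith) (by linarith))
      ha)).trans_eq ?_
    field_simp
  have c6 : 0 ≤ 4 * a ^ 2 / θ * K0 := mul_nonneg (by positivity) k0
  have c7 : 2 * N * a ^ 2 * K0 ≤ 2 * N * a ^ 2 * J :=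
    mul_le_mul_of_nonneg_left k0' (by positivity)
  have c8 : (N ^ 3 * (N + 1) + N ^ 2) * a ^ 2 * J + 2 * N * a ^ 2 * J + 4 * a ^ 2 / θ * J =
      a * J / 4 := by
    have : (N ^ 3 * (N + 1) + N ^ 2) * a ^ 2 * J + 2 * N * a ^ 2 * J + 4 * a ^ 2 / θ * J =
        B * a * (a * J) := by rw [hB]; ring
    rw [this, hBa]; ring
  have c9 : 2 / (N + 1) * ((N + 2) * (N + 1) * J) = 2 * (N + 2) * J := by field_simp
  linarith

/-- The defect pays. -/
theorem gap_lower (hn : 2 ≤ n) : ∃ c σ : ℝ, 0 < c ∧ 0 < σ ∧ ∀ δ : (Fin n → ℝ) → ℝ, Defect δ →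
    δ (one n) ≤ σ * mass δ → c * mass δ ≤ sqMass δ - 2 * (n + 2) * mass δ := by
  have hn0 : 0 < n := by omega
  have hn2 : (2 : ℝ) ≤ n := by exact_mod_cast hn
  set W := ∫ z in orth n, (sm z + n) ^ 2 * Real.exp (-sm z)
  have hW : 0 ≤ W := setIntegral_nonneg measurableSet_orth fun z _ => by positivity
  set κ : ℝ := 2 / ((n : ℝ) * (n + 1)) with hκ
  have hκ1 : κ ≤ 1 := by rw [hκ, div_le_one (by positivity)]; nlinarith
  set θ : ℝ := 1 / ((n : ℝ) ^ 2 * (n + 1)) with hθ
  have hθ0 : 0 < θ := by positivity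
  have hθκ : θ ≤ κ := by
    rw [hθ, hκ, div_le_div_iff₀ (by positivity) (by positivity)]
    nlinarith
  set B : ℝ := (n : ℝ) ^ 3 * (n + 1) + n ^ 2 + (2 * n + 4 / θ) with hB
  have hB0 : 0 < B := by positivity
  set a : ℝ := 1 / (4 * B)
  have ha0 : 0 < a := by positivity
  have hB1 : (n : ℝ) ≤ 4 * B := by
    have : 0 < (n : ℝ) ^ 3 * (n + 1) + n ^ 2 + 4 / θ := by positivity
    linarith
  have hna : (n : ℝ) * a ≤ 1 := by
    show (n : ℝ) * (1 / (4 * B)) ≤ 1
    rw [mul_one_div, div_le_one (by positivity)]; exact hB1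
  refine ⟨a / 2, 1 / (4 * (W + 1)), by positivity, by positivity, fun δ h hδ1 => ?_⟩
  set J := mass δ
  have hJ := h.mass_nonneg
  obtain ⟨m1, m2⟩ := h.moments hn0
  -- split over the parts
  set P : Finset (Fin n) → (Fin n → ℝ) → ℝ := fun T z => δ z * (if T = Finset.univ then
      2 / (n + 1 : ℝ) * sm z ^ 2 - 2 * (n - 1) / (n + 1) * a * sm z - 2 * n * a ^ 2
    else 2 / (n + 1 : ℝ) * sm z ^ 2 + (κ - θ) * sm z ^ 2 - 4 * a ^ 2 / θ) * Real.exp (-sm z) with hP
  have iI := h.integrable (g := fun z => ∑ i, z i ^ 2) (by fun_prop) 1 2 fun z hz => by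
    rw [abs_of_nonneg (Finset.sum_nonneg fun i _ => sq_nonneg _), one_mul]
    exact (sum_sq_le hz).trans (pow_le_pow_left₀ (sm_nonneg hz) (by linarith) 2)
  have iS2 := h.integrable (g := fun z => sm z ^ 2) (by fun_prop) 1 2 fun z hz => by
    rw [abs_of_nonneg (sq_nonneg _), one_mul]
    exact pow_le_pow_left₀ (sm_nonneg hz) (by linarith) 2
  have iS1 := h.integrable (g := sm) (by fun_prop) 1 1 fun z hz => by
    rw [abs_of_nonneg (sm_nonneg hz)]; linarith
  have i0 : IntegrableOn (fun z => δ z * Real.exp (-sm z)) (orth n) := by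
    simpa using h.integrable (g := fun _ => (1 : ℝ)) continuous_const 1 0 (by simp)
  have hsum : sqMass δ =
      ∑ T : Finset (Fin n), ∫ z in part a T, δ z * (∑ i, z i ^ 2) * Real.exp (-sm z) := by
    rw [sqMass, ← iUnion_part a, integral_iUnion_fintype (measurableSet_part a) (part_disjoint a)
      fun T => iI.mono_set (part_subset a T)]
  have hU := measurableSet_part a (Finset.univ : Finset (Fin n))
  have eL : ∀ T : Finset (Fin n), ∫ z in part a T, P T z =
      2 / (n + 1 : ℝ) * (∫ z in part a T, δ z * sm z ^ 2 * Real.exp (-sm z)) +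
      (κ - θ) * (∫ z in part a T, δ z * sm z ^ 2 * Real.exp (-sm z)) -
      4 * a ^ 2 / θ * (∫ z in part a T, δ z * Real.exp (-sm z)) +
      (if T = Finset.univ then
        -(κ - θ) * (∫ z in part a T, δ z * sm z ^ 2 * Real.exp (-sm z)) -
        2 * (n - 1) / (n + 1) * a * (∫ z in part a T, δ z * sm z * Real.exp (-sm z)) +
        (4 * a ^ 2 / θ - 2 * n * a ^ 2) * (∫ z in part a T, δ z * Real.exp (-sm z))
      else 0) := fun T => by
    have j2 := iS2.mono_set (part_subset a T)
    have j1 := iS1.mono_set (part_subset a T)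
    have j0 := i0.mono_set (part_subset a T)
    by_cases hT : T = Finset.univ
    · simp only [hP, hT, if_true]
      subst hT
      have e : ∀ z, δ z * (2 / (n + 1 : ℝ) * sm z ^ 2 - 2 * (n - 1) / (n + 1) * a * sm z -
          2 * n * a ^ 2) * Real.exp (-sm z) =
          2 / (n + 1 : ℝ) * (δ z * sm z ^ 2 * Real.exp (-sm z)) -
          2 * (n - 1) / (n + 1) * a * (δ z * sm z * Real.exp (-sm z)) -
          2 * n * a ^ 2 * (δ z * Real.exp (-sm z)) := fun z => by ring
      simp only [e]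
      rw [integral_sub (by exact (j2.const_mul _).sub (j1.const_mul _)) (j0.const_mul _),
        integral_sub (j2.const_mul _) (j1.const_mul _), integral_const_mul, integral_const_mul,
        integral_const_mul]
      ring
    · simp only [hP, hT, if_false, add_zero]
      have e : ∀ z, δ z * (2 / (n + 1 : ℝ) * sm z ^ 2 + (κ - θ) * sm z ^ 2 - 4 * a ^ 2 / θ) *
          Real.exp (-sm z) =
          (2 / (n + 1 : ℝ) + (κ - θ)) * (δ z * sm z ^ 2 * Real.exp (-sm z)) -
          4 * a ^ 2 / θ * (δ z * Real.exp (-sm z)) := fun z => by ring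
      simp only [e]
      rw [integral_sub (j2.const_mul _) (j0.const_mul _), integral_const_mul, integral_const_mul]
      ring
  have main : ∑ T : Finset (Fin n), ∫ z in part a T, P T z ≤ sqMass δ := by
    rw [hsum]
    exact Finset.sum_le_sum fun T _ => h.part_ineq hn ha0.le hθ0 hθκ T
  simp only [eL, Finset.sum_add_distrib, Finset.sum_sub_distrib, ← Finset.mul_sum,
    Finset.sum_ite_eq', Finset.mem_univ, if_true] at main
  rw [← integral_iUnion_fintype (measurableSet_part a) (part_disjoint a)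
      (fun T => iS2.mono_set (part_subset a T)),
    ← integral_iUnion_fintype (measurableSet_part a) (part_disjoint a)
      (fun T => i0.mono_set (part_subset a T)), iUnion_part, m2, ← mass] at main
  set K2 := ∫ z in part a (Finset.univ : Finset (Fin n)), δ z * sm z ^ 2 * Real.exp (-sm z)
  set K1 := ∫ z in part a (Finset.univ : Finset (Fin n)), δ z * sm z * Real.exp (-sm z)
  set K0 := ∫ z in part a (Finset.univ : Finset (Fin n)), δ z * Real.exp (-sm z)
  have k1 : K1 ≤ (n + 1) * J := by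
    rw [← m1]
    refine setIntegral_mono_set iS1 ((ae_restrict_iff' measurableSet_orth).2 (ae_of_all _
      fun z hz => ?_)) (LE.le.eventuallyLE (part_subset a _))
    exact mul_nonneg (mul_nonneg (h.nonneg z hz) (sm_nonneg hz)) (Real.exp_pos _).le
  have k0 : 0 ≤ K0 ∧ K0 ≤ J := by
    refine ⟨setIntegral_nonneg hU fun z hz => mul_nonneg (h.nonneg z (part_subset a _ hz))
      (Real.exp_pos _).le, setIntegral_mono_set i0 ((ae_restrict_iff' measurableSet_orth).2
        (ae_of_all _ fun z hz => mul_nonneg (h.nonneg z hz) (Real.exp_pos _).le))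
          (LE.le.eventuallyLE (part_subset a _))⟩
  have k2 := h.core_sq_le hn0 ha0.le
  have hd0 : 0 ≤ δ (one n) := h.nonneg _ one_mem
  have hWa : ∫ z in orth n, (sm z + n * a) ^ 2 * Real.exp (-sm z) ≤ W := by
    have hint : ∀ c : ℝ, 0 ≤ c → c ≤ n →
        IntegrableOn (fun z : Fin n → ℝ => (sm z + c) ^ 2 * Real.exp (-sm z)) (orth n) :=
      fun c c0 c1 => integrableOn_weight (by fun_prop) ((1 + n) ^ 2) 2 fun z hz => by
        have hs := sm_nonneg hz
        rw [abs_of_nonneg (sq_nonneg _), ← mul_pow]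
        exact pow_le_pow_left₀ (by linarith) (by nlinarith) 2
    have hna' : (n : ℝ) * a ≤ n := hna.trans (by linarith)
    refine setIntegral_mono_on (hint _ (by positivity) hna') (hint _ (by linarith) le_rfl)
      measurableSet_orth fun z hz => ?_
    exact mul_le_mul_of_nonneg_right (pow_le_pow_left₀
      (by linarith [sm_nonneg hz, mul_nonneg (show (0 : ℝ) ≤ n by linarith) ha0.le]) (by linarith) 2)
      (Real.exp_pos _).le
  have k2' : (1 + n * a) * K2 ≤
      ((n + 2) * (n + 1) + 2 * n * a * (n + 1) + n ^ 2 * a ^ 2) * J + a * (J / 4) := by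
    have hK2 : 0 ≤ K2 := setIntegral_nonneg hU fun z hz => mul_nonneg (mul_nonneg
      (h.nonneg z (part_subset a _ hz)) (sq_nonneg _)) (Real.exp_pos _).le
    refine (mul_le_mul_of_nonneg_right (by linarith [Real.add_one_le_exp ((n : ℝ) * a)]) hK2).trans
      (k2.trans (add_le_add le_rfl ?_))
    rw [mul_assoc]
    refine mul_le_mul_of_nonneg_left ?_ ha0.le
    calc δ (one n) * _ ≤ δ (one n) * W := mul_le_mul_of_nonneg_left hWa hd0
      _ ≤ 1 / (4 * (W + 1)) * J * W := mul_le_mul_of_nonneg_right hδ1 hW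
      _ = J / 4 * (W / (W + 1)) := by field_simp
      _ ≤ J / 4 * 1 := mul_le_mul_of_nonneg_left ((div_le_one (by linarith)).2 (by linarith))
            (by linarith)
      _ = _ := mul_one _
  -- the gain in the collar
  have coll : (n : ℝ) ^ 2 * (n + 1) * a * J - (n ^ 3 * (n + 1) + n ^ 2) * a ^ 2 * J - a * J / 4 ≤
      (n + 2) * (n + 1) * J - K2 := by
    have h1a : 0 < 1 + (n : ℝ) * a := by positivity
    refine le_of_mul_le_mul_left ?_ h1a
    have e : (n : ℝ) ^ 2 * (n + 1) * a * J - n ^ 2 * a ^ 2 * J - a * J / 4 ≤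
        (1 + n * a) * ((n + 2) * (n + 1) * J - K2) := by linarith only [k2']
    refine le_trans ?_ e
    have p1 : 0 ≤ ((n : ℝ) * a) * (n ^ 3 * (n + 1) + n ^ 2) * a ^ 2 * J := by positivity
    have p2 : 0 ≤ (n : ℝ) * a * (a * J / 4) := by positivity
    linarith only [p1, p2]
  have hκθ : 0 ≤ κ - θ := sub_nonneg.2 hθκ
  have e1 : (κ - θ) * ((n : ℝ) ^ 2 * (n + 1)) = 2 * n - 1 := by
    simp only [hκ, hθ]; field_simp
  refine gap_arith hn2 ha0.le hθ0 hJ hκθ (by linarith) e1 hB ?_ coll k1 k0.1 k0.2 main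
  show B * (1 / (4 * B)) = 1 / 4
  field_simp

/-- A zero near the centre makes the centre value small against the mass. -/
theorem center_small {σ : ℝ} (hσ : 0 < σ) : ∃ η : ℝ, 0 < η ∧
    ∀ δ : (Fin n → ℝ) → ℝ, Defect δ → ∀ p : Fin n → ℝ, (∀ i, |p i - 1| ≤ η) → δ p = 0 →
      δ (one n) ≤ σ * mass δ := by
  set V : ℝ := (1 / 2 : ℝ) ^ n * Real.exp (-(2 * n)) with hV
  have hV0 : 0 < V := by positivity
  set θ := min (σ * V) 1 with hθ
  have hθ0 : 0 < θ := lt_min (by positivity) one_pos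
  refine ⟨θ / 4, by positivity, fun δ h p hp hp0 => ?_⟩
  have hJ := h.mass_nonneg
  have hθ1 : θ ≤ 1 := min_le_right _ _
  have hd : ∀ i, -(θ / 4) ≤ p i - 1 ∧ p i - 1 ≤ θ / 4 := fun i => abs_le.1 (hp i)
  have hpo : p ∈ orth n := fun i => by linarith [(hd i).1]
  set q : Fin n → ℝ := fun i => p i + (1 - p i) / θ with hq
  have hqi : ∀ i, 1 / 2 ≤ q i ∧ q i ≤ 3 / 2 := fun i => by
    have h1 : |(1 - p i) / θ| ≤ 1 / 4 := by
      rw [abs_div, abs_of_pos hθ0, div_le_iff₀ hθ0, abs_sub_comm]; linarith [hp i]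
    obtain ⟨l, u⟩ := abs_le.1 h1
    constructor <;> simp only [hq] <;> linarith [(hd i).1, (hd i).2]
  have hqo : q ∈ orth n := fun i => by linarith [(hqi i).1]
  have e : one n = (1 - θ) • p + θ • q := by
    ext i; simp only [one, hq, Pi.add_apply, Pi.smul_apply, smul_eq_mul]; field_simp; ring
  have h1 : δ (one n) ≤ θ * δ q := by
    rw [e]
    refine (h.convex.2 hpo hqo (sub_nonneg.2 hθ1) hθ0.le (by ring)).trans_eq ?_
    simp [hp0]
  set B := Icc (fun i => q i - 1 / 4) fun i => q i + 1 / 4 with hBdef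
  have hBo : B ⊆ orth n := fun z hz i => by linarith [(hqi i).1, hz.1 i]
  have hBm : MeasurableSet B := measurableSet_Icc
  have hBv : volume.real B = (1 / 2) ^ n := by
    rw [hBdef, Measure.real, Real.volume_Icc_pi_toReal fun i => by linarith]
    simp only [show ∀ x : ℝ, x + 1 / 4 - (x - 1 / 4) = 1 / 2 from fun x => by ring]
    simp
  have hiB : IntegrableOn δ B := h.cont.continuousOn.integrableOn_compact isCompact_Icc
  have hiB' : IntegrableOn (fun z => δ ((2 : ℝ) • q - z)) B :=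
    (h.cont.comp (continuous_const.sub continuous_id)).continuousOn.integrableOn_compact
      isCompact_Icc
  have hrefl : ∫ z in B, δ ((2 : ℝ) • q - z) = ∫ z in B, δ z := by
    rw [← integral_indicator hBm, ← integral_indicator hBm,
      ← integral_sub_left_eq_self (B.indicator δ) volume ((2 : ℝ) • q)]
    refine integral_congr_ae (ae_of_all _ fun z => ?_)
    have : (2 : ℝ) • q - z ∈ B ↔ z ∈ B := by
      simp only [hBdef, mem_Icc, Pi.le_def, Pi.sub_apply, Pi.smul_apply, smul_eq_mul]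
      constructor <;> rintro ⟨u, w⟩ <;> constructor <;> intro i <;> linarith [u i, w i]
    beta_reduce
    by_cases hz : z ∈ B
    · rw [Set.indicator_of_mem hz, Set.indicator_of_mem (this.2 hz)]
    · rw [Set.indicator_of_notMem hz, Set.indicator_of_notMem (mt this.1 hz)]
  have h2 : (1 / 2 : ℝ) ^ n * δ q ≤ ∫ z in B, δ z := by
    have hpt : ∀ z ∈ B, δ q ≤ 1 / 2 * δ z + 1 / 2 * δ ((2 : ℝ) • q - z) := fun z hz => by
      have hz' : (2 : ℝ) • q - z ∈ orth n := fun i => by
        simp only [Pi.sub_apply, Pi.smul_apply, smul_eq_mul]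
        linarith [hz.2 i, (hqi i).1]
      have hc := h.convex.2 (hBo hz) hz' (show (0 : ℝ) ≤ 1 / 2 by norm_num)
        (show (0 : ℝ) ≤ 1 / 2 by norm_num) (by norm_num)
      rw [← smul_add, add_sub_cancel, smul_smul] at hc
      simpa using hc
    have := setIntegral_mono_on (integrableOn_const (by
      exact isCompact_Icc.measure_lt_top.ne)) ((hiB.const_mul _).add (hiB'.const_mul _)) hBm hpt
    rw [setIntegral_const, hBv, smul_eq_mul] at this
    simp only [Pi.add_apply] at this
    rw [integral_add (hiB.const_mul _) (hiB'.const_mul _), integral_const_mul, integral_const_mul,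
      hrefl] at this
    linarith
  have h3 : Real.exp (-(2 * n)) * ∫ z in B, δ z ≤ mass δ := by
    rw [← integral_const_mul]
    have i0 : IntegrableOn (fun z => δ z * Real.exp (-sm z)) (orth n) := by
      simpa using h.integrable (g := fun _ => (1 : ℝ)) continuous_const 1 0 (by simp)
    refine le_trans (setIntegral_mono_on (hiB.const_mul _) (i0.mono_set hBo) hBm fun z hz => ?_)
      (setIntegral_mono_set i0 ((ae_restrict_iff' measurableSet_orth).2 (ae_of_all _ fun z hz =>
        mul_nonneg (h.nonneg z hz) (Real.exp_pos _).le)) (LE.le.eventuallyLE hBo))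
    rw [mul_comm]
    refine mul_le_mul_of_nonneg_left (Real.exp_le_exp.2 (neg_le_neg ?_)) (h.nonneg z (hBo hz))
    calc sm z ≤ ∑ _i : Fin n, (2 : ℝ) :=
          Finset.sum_le_sum fun i _ => by linarith [(hqi i).2, hz.2 i]
      _ = _ := by simp [mul_comm]
  have h4 : V * δ q ≤ mass δ := by
    refine le_trans ?_ h3
    rw [hV, mul_comm ((1 / 2 : ℝ) ^ n), mul_assoc]
    exact mul_le_mul_of_nonneg_left h2 (Real.exp_pos _).le
  calc δ (one n) ≤ θ * δ q := h1
    _ ≤ σ * V * δ q := mul_le_mul_of_nonneg_right (min_le_left _ _) (h.nonneg q hqo)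
    _ ≤ σ * mass δ := by rw [mul_assoc]; exact mul_le_mul_of_nonneg_left h4 hσ.le

end Vale.Agent.P254.Local
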